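import Vale.Agent.P076N.BR.Ar

/-! # P076N / BR : the amplitudes of a family of pieces -/

set_option linter.all false

open MeasureTheory Finset
open scoped RealInnerProductSpace FourierTransform

namespace Vale.Agent.P076N.BR

open Vale.Agent.P076 Vale.Agent.P076T

variable {n : ℕ}

/-- the part of the wave with finest caps in `U` below the cap `c` of level `i` -/
noncomputable def gS (D K i : ℕ) (T : Finset (Zv n)) (H : Zv n → E n → ℂ) (c : Zv n) (U : Finset (Zv n)) : E n → ℂ :=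
  fun η => ∑ τ ∈ (T ∩ U).filter (fun τ => cap D K i τ = c), H τ η

/-- the power of the weights -/
noncomputable def MM (n : ℕ) : ℝ := 4 * n + 5

theorem MM_n (n : ℕ) : (n : ℝ) < MM n := by
  have : (0:ℝ) ≤ n := Nat.cast_nonneg n
  unfold MM
  linarith

/-- the squared amplitude -/
noncomputable def mS (D K : ℕ) (T : Finset (Zv n)) (H : Zv n → E n → ℂ) (i : ℕ) (S : Nd n) (U : Finset (Zv n)) : ℝ :=
  mean ((D : ℝ) ^ i) (MM n) (xS D i S) (tS D i S) (gS D K i T H S.c U)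

variable {D K : ℕ} {T : Finset (Zv n)} {H : Zv n → E n → ℂ}

theorem mS_nonneg (hD : 0 < D) (i : ℕ) (S : Nd n) (U : Finset (Zv n)) : 0 ≤ mS D K T H i S U :=
  mean_nonneg (by positivity) _ _ _ _

theorem gS_int {L : ℝ} (hF : Fam L T H) (i : ℕ) (c : Zv n) (U : Finset (Zv n)) : Integrable (gS D K i T H c U) :=
  integrable_finsetSum _ fun τ hτ => (hF.bd τ (mem_inter.mp (mem_filter.mp hτ).1).1).integrable

theorem gS_supp {i : ℕ} {c : Zv n} {U : Finset (Zv n)} {η : E n} (h : gS D K i T H c U η ≠ 0) :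
    ∃ τ ∈ T, τ ∈ U ∧ cap D K i τ = c ∧ H τ η ≠ 0 := by
  obtain ⟨τ, h1, h2⟩ := Finset.exists_ne_zero_of_sum_ne_zero h
  have h3 := mem_filter.mp h1
  exact ⟨τ, (mem_inter.mp h3.1).1, (mem_inter.mp h3.1).2, h3.2, h2⟩

theorem gS_cap (hD : 0 < D) (hF : Fam ((D : ℝ) ^ K) T H) {i : ℕ} (hi : i ≤ K) {c : Zv n} {U : Finset (Zv n)} {η : E n}
    (h : gS D K i T H c U η ≠ 0) (k : Fin n) : |2 * η k - c k / (D : ℝ) ^ i| ≤ 4 / (D : ℝ) ^ i := by
  obtain ⟨τ, h1, _, h3, h4⟩ := gS_supp h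
  have a1 := hF.cell τ h1 η h4 k
  have a2 := cap_near hD hi τ k
  rw [h3] at a2
  have hD1 : (1:ℝ) ≤ D := by exact_mod_cast hD
  have a3 : 3 / (D : ℝ) ^ K ≤ 3 / (D : ℝ) ^ i := by gcongr
  have a4 : 4 / (D : ℝ) ^ i = 3 / (D : ℝ) ^ i + 1 / (D : ℝ) ^ i := by ring
  rw [abs_le] at a1 a2 ⊢
  constructor <;> linarith [a1.1, a1.2, a2.1, a2.2]

theorem gS_split (hD : 0 < D) {i : ℕ} (hi : i < K) (c : Zv n) (U : Finset (Zv n)) :
    gS D K i T H c U = fun η => ∑ c' ∈ below D 1 c, gS D K (i + 1) T H c' U η := by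
  funext η
  unfold gS
  rw [← Finset.sum_fiberwise_of_maps_to (s := (T ∩ U).filter fun τ => cap D K i τ = c) (t := below D 1 c)
    (g := cap D K (i + 1))]
  · refine Finset.sum_congr rfl fun c' hc' => Finset.sum_congr ?_ fun _ _ => rfl
    rw [Finset.filter_filter]
    refine Finset.filter_congr fun τ _ => ⟨fun h => h.2, fun h => ⟨?_, h⟩⟩
    rw [← cap_succ hi, h]
    exact (mem_below hD).mp hc'
  · intro τ hτ
    rw [mem_below hD, cap_succ hi]
    exact (mem_filter.mp hτ).2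

theorem gS_union (i : ℕ) (c : Zv n) {U U' : Finset (Zv n)} (h : Disjoint U U') :
    gS D K i T H c (U ∪ U') = gS D K i T H c U + gS D K i T H c U' := by
  funext η
  unfold gS
  rw [Pi.add_apply, Finset.inter_union_distrib_left, Finset.filter_union, Finset.sum_union]
  exact Finset.disjoint_filter_filter (Finset.disjoint_of_subset_left Finset.inter_subset_right
    (Finset.disjoint_of_subset_right Finset.inter_subset_right h))

theorem gS_top (c : Zv n) : gS D K K T H c {c} = if c ∈ T then H c else fun _ => 0 := by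
  funext η
  unfold gS
  split_ifs with h
  · rw [Finset.inter_singleton_of_mem h, Finset.filter_singleton, if_pos (cap_top c), Finset.sum_singleton]
  · rw [Finset.inter_singleton_of_notMem h]
    simp

theorem l1_ax (n : ℕ) : ∃ C : ℝ, 0 ≤ C ∧ ∀ (D K : ℕ) (T : Finset (Zv n)) (H : Zv n → E n → ℂ), 0 < D →
    Fam ((D : ℝ) ^ K) T H → ∀ i < K, ∀ S U, Real.sqrt (mS D K T H i S U) ≤
      C * ∑ c' ∈ below D 1 S.c, Real.sqrt (mS D K T H (i + 1) (par D S c') U) := by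
  obtain ⟨C, hC, h⟩ := l1_core n (MM n) 4 (n + 1) (MM_n n) (by norm_num) (by positivity)
  refine ⟨C, hC, fun D K T H hD hF i hi S U => ?_⟩
  have hD1 : (1:ℝ) ≤ D := by exact_mod_cast hD
  have hn : (0:ℝ) ≤ n := Nat.cast_nonneg n
  have hρ : (0:ℝ) < (D : ℝ) ^ (i + 1) := by positivity
  unfold mS
  rw [gS_split hD hi]
  refine h ((D : ℝ) ^ i) ((D : ℝ) ^ (i + 1)) (Zv n) (below D 1 S.c)
    (fun c' => WithLp.toLp 2 fun k => (c' k : ℝ) / (D : ℝ) ^ (i + 1)) (fun c' => gS D K (i + 1) T H c' U)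
    (by positivity) (by gcongr; omega) (fun c' _ => gS_int hF _ _ _) (fun c' _ η hη k => gS_cap hD hF hi hη k)
    (xS D i S) (fun c' => xS D (i + 1) (par D S c')) (tS D i S) (tS D (i + 1) (par D S 0)) ?_ ?_
  · exact (time_par hD i (ball D S) 0).trans (le_mul_of_one_le_left (by positivity) (by linarith))
  · intro c' _
    refine (norm_le_mul (r := (D : ℝ) ^ (i + 1)) fun l => ?_).trans (by gcongr; linarith)
    obtain ⟨a1, a2⟩ := pos_ball hD i S l
    obtain ⟨a3, a4⟩ := pos_par hD i (ball D S) c' l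
    have e1 : tS D i (ball D S) = tS D i S := rfl
    have e2 : tS D (i + 1) (parB D (ball D S) c') = tS D (i + 1) (par D S 0) := rfl
    rw [e1, e2] at a3 a4
    simp only [PiLp.sub_apply] at a1 a2 a3 a4 ⊢
    unfold par at a3 a4 ⊢
    rw [abs_le]
    constructor <;> linarith

theorem bk_ax (n : ℕ) : ∃ C : ℝ, 0 ≤ C ∧ ∀ (D K : ℕ) (T : Finset (Zv n)) (H : Zv n → E n → ℂ), 0 < D →
    Fam ((D : ℝ) ^ K) T H → ∀ i < K, ∀ k ≤ n, ∀ (p : Pl n) (w : Vc n) (b : Nd n) (U : Finset (Zv n))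
      (Z : Finset (Nd n)),
      (∀ τ ∈ U, cap D K i τ = b.c → InS p k ((2 * n + 2) / (D : ℝ) ^ (i + 1)) (vel D K τ)) →
      (∀ S ∈ Z, ball D S = b ∧ InS (p.1, w) k 1 (toV S.o)) →
      ∑ S ∈ Z, mS D K T H i S U ≤ C * (D : ℝ) ^ k * ∑ c' ∈ below D 1 b.c, mS D K T H (i + 1) (parB D b c') U := by
  have hn : (0:ℝ) ≤ n := Nat.cast_nonneg n
  obtain ⟨C, hC, h⟩ := bk_core n (MM n) (5 * n + 4) (n + 1) (by unfold MM; linarith) (by linarith) (by positivity)
  refine ⟨C, hC, fun D K T H hD hF i hi k hk p w b U Z hU hZ => ?_⟩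
  have hD1 : (1:ℝ) ≤ D := by exact_mod_cast hD
  have hρ : (0:ℝ) < (D : ℝ) ^ (i + 1) := by positivity
  have hr : (0:ℝ) < (D : ℝ) ^ i := by positivity
  have hc : ∀ S ∈ Z, S.c = b.c := fun S hS => by rw [← (hZ S hS).1]; rfl
  have hT : ∀ S ∈ Z, S.T = b.T := fun S hS => by rw [← (hZ S hS).1]; rfl
  have e1 : ∀ S ∈ Z, mS D K T H i S U = mean ((D : ℝ) ^ i) (MM n) (xS D i S) (tS D i b)
      (fun η => ∑ c' ∈ below D 1 b.c, gS D K (i + 1) T H c' U η) := by
    intro S hS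
    unfold mS tS
    rw [hc S hS, hT S hS, gS_split hD hi]
  rw [Finset.sum_congr rfl e1]
  have key := h k ((D : ℝ) ^ i) ((D : ℝ) ^ (i + 1)) p.1 p.2 (Zv n) (below D 1 b.c) id
    (fun c' => gS D K (i + 1) T H c' U) hk hr (by gcongr; omega) (fun c' _ => gS_int hF _ _ _) (Set.injOn_id _)
    ?_ ?_ (Nd n) Z (xS D i) (xB D i b) (((D : ℝ) ^ i) • (w + (b.T : ℝ) • toV b.c))
    (fun c' => xS D (i + 1) (parB D b c')) (tS D i b) (tS D (i + 1) (parB D b 0)) ?_ ?_ ?_ ?_ ?_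
  · have e2 : (D : ℝ) ^ (i + 1) / (D : ℝ) ^ i = D := by rw [pow_succ]; field_simp
    rw [e2] at key
    exact key
  · intro c' _ η hη l
    refine (gS_cap hD hF hi hη l).trans ?_
    gcongr
    linarith
  · intro c' hc' η hη l hl
    obtain ⟨τ, h1, h2, h3, h4⟩ := gS_supp hη
    have a1 := hU τ h2 (by rw [← cap_succ hi, h3]; exact (mem_below hD).mp hc') l hl
    have a2 : ‖(2:ℝ) • η - vel D K τ‖ ≤ n * (3 / (D : ℝ) ^ K) := by
      refine norm_le_mul fun k => ?_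
      have := hF.cell τ h1 η h4 k
      unfold vel toV
      simpa [div_eq_inv_mul] using this
    have a3 : |p.1 ((2:ℝ) • η - vel D K τ) l| ≤ n * (3 / (D : ℝ) ^ (i + 1)) := by
      refine (P076T.abs_apply_le _ _).trans ((le_of_eq (p.1.norm_map _)).trans (a2.trans ?_))
      gcongr
      omega
    have a4 : p.1 ((2:ℝ) • η - p.2) l = p.1 ((2:ℝ) • η - vel D K τ) l + p.1 (vel D K τ - p.2) l := by
      rw [show (2:ℝ) • η - p.2 = ((2:ℝ) • η - vel D K τ) + (vel D K τ - p.2) by abel, map_add]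
      rfl
    have a5 : (5 * n + 4) / (D : ℝ) ^ (i + 1) = n * (3 / (D : ℝ) ^ (i + 1)) + (2 * n + 2) / (D : ℝ) ^ (i + 1) +
        2 / (D : ℝ) ^ (i + 1) := by ring
    have a6 : 0 ≤ 2 / (D : ℝ) ^ (i + 1) := by positivity
    rw [a4, a5]
    exact (abs_add_le _ _).trans (by linarith)
  · intro S hS S' hS' hl
    refine Nd.ext ((hc S hS).trans (hc S' hS').symm) (funext fun l => ?_) ((hT S hS).trans (hT S' hS').symm)
    have := hl l
    rw [xS_apply, xS_apply, mul_div_cancel_left₀ _ hr.ne', mul_div_cancel_left₀ _ hr.ne', hc S hS, hc S' hS', hT S hS,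
      hT S' hS'] at this
    have e : ∀ a : ℤ, ⌊(a : ℝ) + (b.T : ℝ) * (b.c l : ℝ)⌋ = a + b.T * b.c l := fun a => by
      rw [← Int.floor_intCast (R := ℝ) (a + b.T * b.c l)]
      push_cast
      rfl
    rw [e, e] at this
    linarith
  · intro S hS
    refine (norm_le_mul (r := (D : ℝ) ^ (i + 1)) fun l => ?_).trans (by gcongr; linarith)
    obtain ⟨a1, a2⟩ := pos_ball hD i S l
    rw [(hZ S hS).1] at a1 a2
    rw [abs_of_nonneg a1]
    exact a2
  · intro S hS l hl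
    have a1 := (hZ S hS).2 l hl
    have e : xS D i S - ((D : ℝ) ^ i) • (w + (b.T : ℝ) • toV b.c) = ((D : ℝ) ^ i) • (toV S.o - w) := by
      ext k
      rw [PiLp.sub_apply, xS_apply, hc S hS, hT S hS]
      simp [toV]
      ring
    rw [e, map_smul, PiLp.smul_apply, smul_eq_mul, abs_mul, abs_of_pos hr, mul_comm]
    exact mul_le_mul_of_nonneg_right (a1.trans (by linarith)) hr.le
  · exact (time_par hD i b 0).trans (le_mul_of_one_le_left (by positivity) (by linarith))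
  · intro c' _
    refine (norm_le_mul (r := (D : ℝ) ^ (i + 1)) fun l => ?_).trans (by gcongr; linarith)
    obtain ⟨a3, a4⟩ := pos_par hD i b c' l
    have e2 : tS D (i + 1) (parB D b c') = tS D (i + 1) (parB D b 0) := rfl
    rw [e2] at a3 a4
    rw [abs_le]
    exact ⟨a3, a4.trans hρ.le⟩

/-- the top nodes, grouped by caps -/
theorem top_group (hD : 0 < D) (Z : Finset (Nd n)) (hZ : ∀ S ∈ Z, S.T = 0) (T' : Finset (Zv n))
    (hT' : ∀ S ∈ Z, S.c ∈ T → S.c ∈ T') (hT'' : T' ⊆ T) :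
    ∑ S ∈ Z, mS D K T H K S {S.c} = ∑ τ ∈ T', ∑ S ∈ Z.filter (fun S => S.c = τ),
      mean ((D : ℝ) ^ K) (MM n) (((D : ℝ) ^ K) • toV S.o) 0 (H τ) := by
  have e1 : ∑ S ∈ Z, mS D K T H K S {S.c} = ∑ S ∈ Z.filter (fun S => S.c ∈ T), mS D K T H K S {S.c} := by
    rw [Finset.sum_filter]
    refine Finset.sum_congr rfl fun S _ => ?_
    split_ifs with h
    · rfl
    · unfold mS
      rw [gS_top, if_neg h, mean_zero]
  rw [e1, ← Finset.sum_fiberwise_of_maps_to (s := Z.filter fun S => S.c ∈ T) (t := T') (g := fun S => S.c)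
    (fun S hS => hT' S (mem_filter.mp hS).1 (mem_filter.mp hS).2)]
  refine Finset.sum_congr rfl fun τ hτ => Finset.sum_congr ?_ fun S hS => ?_
  · rw [Finset.filter_filter]
    exact Finset.filter_congr fun S _ => ⟨fun h => h.2, fun h => ⟨h ▸ hT'' hτ, h⟩⟩
  · obtain ⟨h1, h2⟩ := mem_filter.mp hS
    have h3 : xpos S = S.o := by
      funext l
      unfold xpos
      rw [hZ S h1]
      simp
    unfold mS tS xS
    rw [gS_top, h2, if_pos (hT'' hτ), hZ S h1, h3]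
    simp

theorem top_sep (hD : 0 < D) (Z : Finset (Nd n)) (hZ : ∀ S ∈ Z, S.T = 0) (τ : Zv n) :
    ∀ i ∈ Z.filter (fun S => S.c = τ), ∀ j ∈ Z.filter (fun S => S.c = τ),
      (∀ k, ⌊(((D : ℝ) ^ K) • toV i.o : E n) k / (D : ℝ) ^ K⌋ = ⌊(((D : ℝ) ^ K) • toV j.o : E n) k / (D : ℝ) ^ K⌋) →
        i = j := by
  intro S hS S' hS' h
  have hr : (0:ℝ) < (D : ℝ) ^ K := by positivity
  obtain ⟨h1, h2⟩ := mem_filter.mp hS
  obtain ⟨h3, h4⟩ := mem_filter.mp hS'
  refine Nd.ext (h2.trans h4.symm) (funext fun l => ?_) ((hZ S h1).trans (hZ S' h3).symm)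
  have := h l
  simp only [PiLp.smul_apply, smul_eq_mul, mul_div_cancel_left₀ _ hr.ne', toV, Int.floor_intCast] at this
  exact this

theorem top_ax (hD : 0 < D) {L Q : ℝ} (hF : Fam L T H) (hQ : ∑ τ ∈ T, en (H τ) ≤ Q) (Z : Finset (Nd n))
    (hZ : ∀ S ∈ Z, S.T = 0) : (∑ S ∈ Z, mS D K T H K S {S.c}) * (D : ℝ) ^ (K * n) ≤ cW n * Q := by
  have hn : (0:ℝ) ≤ n := Nat.cast_nonneg n
  have hr : (0:ℝ) < (D : ℝ) ^ K := by positivity
  rw [top_group hD Z hZ T (fun _ _ h => h) (Finset.Subset.refl _), pow_mul]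
  have h1 : ∑ τ ∈ T, ∑ S ∈ Z.filter (fun S => S.c = τ), mean ((D : ℝ) ^ K) (MM n) (((D : ℝ) ^ K) • toV S.o) 0 (H τ) ≤
      ∑ τ ∈ T, cW n * (((D : ℝ) ^ K) ^ n)⁻¹ * en (H τ) :=
    Finset.sum_le_sum fun τ hτ => mean_top (by unfold MM; linarith) hr _ _ (top_sep hD Z hZ τ) 0
      (hF.bd τ hτ).integrable (hF.bd τ hτ).memLp
  rw [← Finset.mul_sum] at h1
  have hcW := cW_nonneg n
  calc _ ≤ (cW n * (((D : ℝ) ^ K) ^ n)⁻¹ * Q) * ((D : ℝ) ^ K) ^ n := by
        gcongr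
        exact h1.trans (by gcongr)
    _ = _ := by field_simp

theorem plate_ax (hD : 0 < D) {Q : ℝ} (hF : Fam ((D : ℝ) ^ K) T H) {c : ℝ} (hc : 0 ≤ c)
    (hp : ∀ (e : E n) (v b : ℝ), ‖e‖ = 1 →
      plm (((D : ℝ) ^ K) ^ c) ((D : ℝ) ^ K) e v b T H ≤ ((D : ℝ) ^ K) ^ (-c) * Q)
    (ν : Vc n) (v b : ℝ) (Z : Finset (Nd n)) (hν : ‖ν‖ = 1)
    (hZ : ∀ S ∈ Z, S.T = 0 ∧ (∀ l, |S.o l| ≤ 100 * (D : ℤ) ^ K) ∧
      |⟪ν, vel D K S.c⟫ - v| ≤ (D : ℝ) ^ (c * K) / (D : ℝ) ^ K ∧ |⟪ν, toV S.o⟫ - b| ≤ (D : ℝ) ^ (c * K)) :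
    (∑ S ∈ Z, mS D K T H K S {S.c}) * (D : ℝ) ^ (K * n) ≤
      cW n * (2 + 2 * (100 * n + 1)) ^ 4 * (D : ℝ) ^ (-(c * K)) * Q := by
  have hn : (0:ℝ) ≤ n := Nat.cast_nonneg n
  have hD1 : (1:ℝ) ≤ D := by exact_mod_cast hD
  set L : ℝ := (D : ℝ) ^ K with hL
  have hL1 : 1 ≤ L := one_le_pow₀ hD1
  have hr : 0 < L := by linarith
  have ep : (D : ℝ) ^ (c * K) = L ^ c := by
    rw [hL, ← Real.rpow_natCast, ← Real.rpow_mul (by linarith), mul_comm]
  have em : (D : ℝ) ^ (-(c * K)) = L ^ (-c) := by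
    rw [Real.rpow_neg (by linarith), Real.rpow_neg hr.le, ep]
  have hp1 : 1 ≤ L ^ c := Real.one_le_rpow hL1 hc
  have hZ0 : ∀ S ∈ Z, S.T = 0 := fun S hS => (hZ S hS).1
  rw [top_group hD Z hZ0 (T.filter fun τ => |inner ℝ ν (toV τ) / L - v| ≤ L ^ c / L) ?_ (Finset.filter_subset _ _),
    pow_mul, em]
  · have h1 : ∑ τ ∈ T.filter (fun τ => |inner ℝ ν (toV τ) / L - v| ≤ L ^ c / L),
        ∑ S ∈ Z.filter (fun S => S.c = τ), mean L (MM n) (L • toV S.o) 0 (H τ) ≤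
        cW n * (2 + 2 * (100 * n + 1)) ^ 4 * (L ^ n)⁻¹ * plm (L ^ c) L ν v (L * b) T H := by
      unfold plm
      rw [Finset.mul_sum]
      refine Finset.sum_le_sum fun τ hτ => ?_
      have hτ' := (mem_filter.mp hτ).1
      simp_rw [fourierInv_eq_evo]
      refine mean_plate (q := 4) (B := 100 * n + 1) (by unfold MM; push_cast; linarith) hL1 hp1 (by positivity) hν.le _ _
        (top_sep hD Z hZ0 τ) (fun S hS => ?_) (fun S hS => ?_) 0 (hF.bd τ hτ').integrable (hF.bd τ hτ').memLp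
      · have a1 := (hZ S (mem_filter.mp hS).1).2.2.2
        rw [real_inner_smul_right, ← mul_sub, abs_mul, abs_of_pos hr]
        rw [ep] at a1
        calc L * |inner ℝ ν (toV S.o) - b| ≤ L * L ^ c := by gcongr
          _ = 1 * (L ^ c * L) := by ring
          _ ≤ _ := by gcongr; linarith
      · have a1 := (hZ S (mem_filter.mp hS).1).2.1
        rw [norm_smul, Real.norm_of_nonneg hr.le]
        have a2 : ‖toV S.o‖ ≤ n * (100 * L) := by
          refine norm_le_mul fun l => ?_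
          have : ((|S.o l| : ℤ) : ℝ) ≤ ((100 * (D : ℤ) ^ K : ℤ) : ℝ) := by exact_mod_cast a1 l
          push_cast at this
          exact this
        calc L * ‖toV S.o‖ ≤ L * (n * (100 * L)) := by gcongr
          _ = (100 * n) * L ^ 2 := by ring
          _ ≤ _ := by gcongr; linarith
    have h2 := hp ν v (L * b) hν
    have hcW := cW_nonneg n
    calc _ ≤ (cW n * (2 + 2 * (100 * n + 1)) ^ 4 * (L ^ n)⁻¹ * (L ^ (-c) * Q)) * L ^ n := by
          gcongr
          exact h1.trans (by gcongr)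
      _ = _ := by field_simp
  · intro S hS h
    refine mem_filter.mpr ⟨h, ?_⟩
    have a1 := (hZ S hS).2.2.1
    unfold vel at a1
    rw [real_inner_smul_right, ep] at a1
    rw [div_eq_inv_mul]
    exact a1

theorem root_ax (n : ℕ) : ∃ C : ℝ, 0 ≤ C ∧ ∀ (D K : ℕ) (T : Finset (Zv n)) (H : Zv n → E n → ℂ), 4 ≤ D → 1 ≤ K →
    Fam ((D : ℝ) ^ K) T H → ∀ (p : E n × ℝ) (y : Zv n) (s : ℤ), (∀ l, |p.1 l - y l| ≤ 1) → |p.2 - s| ≤ 1 →
      ∃ c : Zv n, (∀ l, |c l| ≤ 10) ∧ ‖Uu (fun η => ∑ τ ∈ T, H τ η) p‖ ≤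
        C * Real.sqrt (mS D K T H 0 ⟨c, fun l => y l - s * c l, s⟩ (below D K c)) := by
  have hn : (0:ℝ) ≤ n := Nat.cast_nonneg n
  obtain ⟨C, hC, h⟩ := root_core n (MM n) 4 (11 * n + 1) (MM_n n) (by norm_num) (by positivity)
  set box : Finset (Zv n) := Fintype.piFinset fun _ => Finset.Icc (-10) 10 with hbox
  refine ⟨box.card * C, by positivity, fun D K T H hD hK hF p y s hy hs => ?_⟩
  have hD0 : 0 < D := by omega
  have hD4 : (4:ℝ) ≤ D := by exact_mod_cast hD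
  have hL : (4:ℝ) ≤ (D : ℝ) ^ K := hD4.trans (le_self_pow₀ (by linarith) (by omega))
  have e1 : (fun η => ∑ τ ∈ T, H τ η) = fun η => ∑ c ∈ box, gS D K 0 T H c (below D K c) η := by
    funext η
    rw [← Finset.sum_filter_ne_zero, ← Finset.sum_fiberwise_of_maps_to (t := box) (g := cap D K 0)]
    · refine Finset.sum_congr rfl fun c _ => ?_
      unfold gS
      rw [← Finset.sum_filter_ne_zero ((T ∩ below D K c).filter _)]
      refine Finset.sum_congr ?_ fun _ _ => rfl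
      ext τ
      simp only [mem_filter, mem_inter]
      constructor
      · rintro ⟨⟨h1, h2⟩, h3⟩
        exact ⟨⟨⟨h1, (mem_below hD0).mpr h3⟩, h3⟩, h2⟩
      · rintro ⟨⟨⟨h1, _⟩, h3⟩, h2⟩
        exact ⟨⟨h1, h2⟩, h3⟩
    · intro τ hτ
      obtain ⟨h1, h2⟩ := mem_filter.mp hτ
      rw [hbox, Fintype.mem_piFinset]
      intro l
      have a1 := abs_le.mp (hF.cell τ h1 η h2 l)
      have a2 := abs_le.mp (cap_near hD0 (Nat.zero_le K) τ l)
      have a3 := abs_le.mp ((P076T.abs_apply_le η l).trans ((hF.bd τ h1).supp η h2))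
      have a4 : 3 / (D : ℝ) ^ K ≤ 1 := by rw [div_le_one (by linarith)]; linarith
      simp only [pow_zero, div_one] at a2
      have a5 : (-10 : ℝ) ≤ (cap D K 0 τ l : ℝ) := by linarith [a1.1, a1.2, a2.1, a2.2, a3.1, a3.2]
      have a6 : (cap D K 0 τ l : ℝ) ≤ 10 := by linarith [a1.1, a1.2, a2.1, a2.2, a3.1, a3.2]
      rw [Finset.mem_Icc]
      exact ⟨by exact_mod_cast a5, by exact_mod_cast a6⟩
  have hne : box.Nonempty := ⟨0, by rw [hbox, Fintype.mem_piFinset]; intro l; simp⟩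
  obtain ⟨c, hc, hmax⟩ := Finset.exists_max_image box (fun c => ‖evo (gS D K 0 T H c (below D K c)) p.1 p.2 0‖) hne
  have hc10 : ∀ l, |c l| ≤ 10 := by
    intro l
    have := Finset.mem_Icc.mp (Fintype.mem_piFinset.mp hc l)
    exact abs_le.mpr this
  refine ⟨c, hc10, ?_⟩
  have a1 : ‖Uu (fun η => ∑ τ ∈ T, H τ η) p‖ ≤ box.card * ‖evo (gS D K 0 T H c (below D K c)) p.1 p.2 0‖ := by
    unfold Uu
    rw [e1, evo_sum box fun c _ => gS_int hF 0 c _]
    refine (norm_sum_le _ _).trans ((Finset.sum_le_sum hmax).trans (le_of_eq ?_))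
    rw [Finset.sum_const, nsmul_eq_mul]
  have a2 := h 1 (toV c) (gS D K 0 T H c (below D K c)) one_pos (gS_int hF 0 c _) (fun η hη k => by
    have := gS_cap hD0 hF (Nat.zero_le K) hη k
    simpa [toV] using this) p.1 (xS D 0 ⟨c, fun l => y l - s * c l, s⟩) p.2 (tS D 0 ⟨c, fun l => y l - s * c l, s⟩)
    (by
      unfold tS
      simp only [pow_zero, one_pow, mul_one]
      linarith) (by
      refine (norm_le_mul (r := 11) fun l => ?_).trans (by linarith)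
      have b1 : ((|c l| : ℤ) : ℝ) ≤ ((10 : ℤ) : ℝ) := by exact_mod_cast hc10 l
      push_cast at b1
      have e : (p.1 - xS D 0 ⟨c, fun l => y l - s * c l, s⟩ -
          (p.2 - tS D 0 ⟨c, fun l => y l - s * c l, s⟩) • toV c) l = (p.1 l - y l) - (p.2 - s) * c l := by
        rw [PiLp.sub_apply, PiLp.sub_apply, xS_apply]
        simp [tS, toV]
      rw [e]
      refine (abs_sub _ _).trans ?_
      rw [abs_mul]
      have b2 := mul_le_mul hs b1 (abs_nonneg _) zero_le_one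
      linarith [hy l])
  unfold mS
  simp only [pow_zero]
  calc _ ≤ _ := a1
    _ ≤ box.card * (C * _) := by gcongr
    _ = _ := by ring

/-- **[AMPX]** -/
theorem ampx (n : ℕ) : AMPX n := by
  obtain ⟨C1, hC1, h1⟩ := l1_ax n
  obtain ⟨C2, hC2, h2⟩ := bk_ax n
  obtain ⟨C3, hC3, h3⟩ := root_ax n
  have hcW := cW_nonneg n
  have hn : (0:ℝ) ≤ n := Nat.cast_nonneg n
  set C4 : ℝ := cW n * (2 + 2 * (100 * n + 1)) ^ 4 with hC4
  have hC40 : 0 ≤ C4 := by positivity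
  intro K hK
  refine ⟨1 + C1 + C2 + C3 + cW n + C4, by linarith, fun N L T H Q hN hL hF hQ => ?_⟩
  have hD4 : 4 ≤ 2 ^ N := le_trans (by norm_num) (Nat.pow_le_pow_right (by norm_num) hN)
  have hD : 0 < 2 ^ N := by omega
  have hL' : L = ((2 ^ N : ℕ) : ℝ) ^ K := by rw [hL]; push_cast; rfl
  subst hL'
  have hQ0 : 0 ≤ Q := le_trans (Finset.sum_nonneg fun τ _ => integral_nonneg fun η => by positivity) hQ
  have hsq : ∀ i S U, Real.sqrt (mS (2 ^ N) K T H i S U) ^ 2 = mS (2 ^ N) K T H i S U :=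
    fun i S U => Real.sq_sqrt (mS_nonneg hD i S U)
  refine ⟨⟨fun i S U => Real.sqrt (mS (2 ^ N) K T H i S U), fun i S U => Real.sqrt_nonneg _, ?_, ?_, ?_, ?_, ?_, ?_⟩,
    ?_, ?_⟩
  · intro i S U
    unfold mS gS
    congr 3
    funext η
    refine Finset.sum_congr ?_ fun _ _ => rfl
    ext τ
    simp only [mem_filter, mem_inter]
    tauto
  · intro i S
    unfold mS gS
    simp [mean_zero]
  · intro i S U U' hU
    unfold mS
    rw [gS_union i S.c hU]
    exact sqrt_mean_add (MM_n n) (by positivity) _ _ (gS_int hF _ _ _) (gS_int hF _ _ _)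
  · intro i hi S U
    refine (h1 _ K T H hD hF i hi S U).trans (mul_le_mul_of_nonneg_right (by linarith) ?_)
    exact Finset.sum_nonneg fun _ _ => Real.sqrt_nonneg _
  · intro i hi k hk p w b U Z hU hZ
    simp_rw [hsq]
    refine (h2 _ K T H hD hF i hi k hk p w b U Z hU hZ).trans (mul_le_mul_of_nonneg_right ?_ ?_)
    · exact mul_le_mul_of_nonneg_right (by linarith) (by positivity)
    · exact Finset.sum_nonneg fun _ _ => mS_nonneg hD _ _ _
  · intro Z hZ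
    simp_rw [hsq]
    exact (top_ax hD hF hQ Z hZ).trans (mul_le_mul_of_nonneg_right (by linarith) hQ0)
  · intro p y s hy hs
    obtain ⟨c, hc, h⟩ := h3 _ K T H hD4 hK hF p y s hy hs
    exact ⟨c, hc, h.trans (mul_le_mul_of_nonneg_right (by linarith) (Real.sqrt_nonneg _))⟩
  · intro c hc hp ν v b Z hν hZ
    simp_rw [hsq]
    refine (plate_ax hD hF hc hp ν v b Z hν hZ).trans (mul_le_mul_of_nonneg_right ?_ hQ0)
    exact mul_le_mul_of_nonneg_right (by linarith) (by positivity)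

end Vale.Agent.P076N.BR
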