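import Vale.Agent.P076N.A.Pck
import Vale.Agent.P076T.Core

/-! # P076N / BR : arithmetic of caps and nodes -/

set_option linter.all false

open MeasureTheory Finset

namespace Vale.Agent.P076N.BR

open Vale.Agent.P076 Vale.Agent.P076T

variable {n : ℕ}

theorem ediv_bd (a : ℤ) {q : ℤ} (hq : 0 < q) :
    0 ≤ (a : ℝ) / q - ((a / q : ℤ) : ℝ) ∧ (a : ℝ) / q - ((a / q : ℤ) : ℝ) ≤ 1 := by
  have hq' : (0:ℝ) < q := by exact_mod_cast hq
  have h1 : (a : ℝ) = q * ((a / q : ℤ) : ℝ) + ((a % q : ℤ) : ℝ) := by exact_mod_cast (Int.mul_ediv_add_emod a q).symm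
  have h2 : (0:ℝ) ≤ ((a % q : ℤ) : ℝ) := by exact_mod_cast Int.emod_nonneg a hq.ne'
  have h3 : ((a % q : ℤ) : ℝ) ≤ q := by exact_mod_cast (Int.emod_lt_of_pos a hq).le
  have h4 : (a : ℝ) / q - ((a / q : ℤ) : ℝ) = ((a % q : ℤ) : ℝ) / q := by
    rw [h1]
    field_simp
    rw [← h1]
    linarith
  rw [h4]
  exact ⟨by positivity, by rwa [div_le_one hq']⟩

theorem mem_below {D r : ℕ} (hD : 0 < D) {c τ : Zv n} : τ ∈ below D r c ↔ dv ((D : ℤ) ^ r) τ = c := by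
  have hq : (0:ℤ) < (D : ℤ) ^ r := by positivity
  unfold below dv
  rw [Fintype.mem_piFinset, funext_iff]
  refine forall_congr' fun l => ?_
  rw [Finset.mem_Ico]
  constructor
  · rintro ⟨h1, h2⟩
    apply le_antisymm
    · have : τ l / (D : ℤ) ^ r < c l + 1 := Int.ediv_lt_of_lt_mul hq (by linarith)
      omega
    · exact Int.le_ediv_of_mul_le hq (by linarith)
  · intro h
    rw [← h]
    have h1 := Int.mul_ediv_add_emod (τ l) ((D : ℤ) ^ r)
    have h2 := Int.emod_nonneg (τ l) hq.ne'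
    have h3 := Int.emod_lt_of_pos (τ l) hq
    constructor <;> nlinarith

theorem cap_succ {D K i : ℕ} (hi : i < K) (τ : Zv n) :
    dv ((D : ℤ) ^ 1) (cap D K (i + 1) τ) = cap D K i τ := by
  funext l
  unfold cap dv
  rw [Int.ediv_ediv_of_nonneg (by positivity), ← pow_add]
  congr 2
  omega

theorem cap_top {D K : ℕ} (τ : Zv n) : cap D K K τ = τ := by
  funext l
  unfold cap dv
  simp

theorem cap_near {D K i : ℕ} (hD : 0 < D) (hi : i ≤ K) (τ : Zv n) (k : Fin n) :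
    |(τ k : ℝ) / (D : ℝ) ^ K - (cap D K i τ k : ℝ) / (D : ℝ) ^ i| ≤ 1 / (D : ℝ) ^ i := by
  have hD' : (0:ℝ) < D := by exact_mod_cast hD
  obtain ⟨h1, h2⟩ := ediv_bd (τ k) (q := (D : ℤ) ^ (K - i)) (by positivity)
  have e : (D : ℝ) ^ K = (D : ℝ) ^ (K - i) * (D : ℝ) ^ i := by rw [← pow_add]; congr 1; omega
  have e2 : (τ k : ℝ) / (D : ℝ) ^ K - (cap D K i τ k : ℝ) / (D : ℝ) ^ i =
      ((τ k : ℝ) / (((D : ℤ) ^ (K - i) : ℤ) : ℝ) - ((τ k / (D : ℤ) ^ (K - i) : ℤ) : ℝ)) / (D : ℝ) ^ i := by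
    unfold cap dv
    rw [e]
    push_cast
    field_simp
  rw [e2, abs_div, abs_of_pos (by positivity : 0 < (D : ℝ) ^ i), abs_of_nonneg h1]
  gcongr

/-- centre of a node of level `i` -/
noncomputable def xS (D i : ℕ) (S : Nd n) : E n := ((D : ℝ) ^ i) • toV (xpos S)

/-- time of a node of level `i` -/
noncomputable def tS (D i : ℕ) (S : Nd n) : ℝ := S.T * ((D : ℝ) ^ i) ^ 2

theorem xS_apply (D i : ℕ) (S : Nd n) (l : Fin n) : xS D i S l = (D : ℝ) ^ i * ((S.o l : ℝ) + S.T * S.c l) := by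
  unfold xS xpos toV
  simp

theorem time_par {D : ℕ} (hD : 0 < D) (i : ℕ) (b : Nd n) (c' : Zv n) :
    |tS D i b - tS D (i + 1) (parB D b c')| ≤ ((D : ℝ) ^ (i + 1)) ^ 2 := by
  have hD' : (0:ℝ) < D := by exact_mod_cast hD
  obtain ⟨h1, h2⟩ := ediv_bd b.T (q := (D : ℤ) ^ 2) (by positivity)
  have e : tS D i b - tS D (i + 1) (parB D b c') =
      ((D : ℝ) ^ (i + 1)) ^ 2 * ((b.T : ℝ) / (((D : ℤ) ^ 2 : ℤ) : ℝ) - ((b.T / (D : ℤ) ^ 2 : ℤ) : ℝ)) := by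
    unfold tS parB
    push_cast
    field_simp
    ring
  rw [e, abs_mul, abs_of_nonneg h1, abs_of_pos (by positivity)]
  exact mul_le_of_le_one_right (by positivity) h2

/-- centre of a ball of level `i` -/
noncomputable def xB (D i : ℕ) (b : Nd n) : E n :=
  WithLp.toLp 2 fun l => (D : ℝ) ^ (i + 1) * b.o l + (D : ℝ) ^ i * (b.T * b.c l)

theorem pos_ball {D : ℕ} (hD : 0 < D) (i : ℕ) (S : Nd n) (l : Fin n) :
    0 ≤ (xS D i S - xB D i (ball D S)) l ∧ (xS D i S - xB D i (ball D S)) l ≤ (D : ℝ) ^ (i + 1) := by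
  have hD' : (0:ℝ) < D := by exact_mod_cast hD
  obtain ⟨h1, h2⟩ := ediv_bd (S.o l) (q := (D : ℤ)) (by exact_mod_cast hD)
  have e : (xS D i S - xB D i (ball D S)) l =
      (D : ℝ) ^ (i + 1) * ((S.o l : ℝ) / ((D : ℤ) : ℝ) - ((S.o l / (D : ℤ) : ℤ) : ℝ)) := by
    rw [PiLp.sub_apply, xS_apply]
    unfold xB ball dv
    push_cast
    field_simp
    ring
  rw [e]
  exact ⟨by positivity, mul_le_of_le_one_right (by positivity) h2⟩

theorem pos_par {D : ℕ} (hD : 0 < D) (i : ℕ) (b : Nd n) (c' : Zv n) (l : Fin n) :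
    -(D : ℝ) ^ (i + 1) ≤ (xB D i b - xS D (i + 1) (parB D b c') - (tS D i b - tS D (i + 1) (parB D b c')) •
      (WithLp.toLp 2 fun k => (c' k : ℝ) / (D : ℝ) ^ (i + 1) : E n)) l ∧
    (xB D i b - xS D (i + 1) (parB D b c') - (tS D i b - tS D (i + 1) (parB D b c')) •
      (WithLp.toLp 2 fun k => (c' k : ℝ) / (D : ℝ) ^ (i + 1) : E n)) l ≤ 0 := by
  have hD' : (0:ℝ) < D := by exact_mod_cast hD
  obtain ⟨h1, h2⟩ := ediv_bd (b.T * (c' l - D * b.c l)) (q := (D : ℤ) ^ 2) (by positivity)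
  have e : (xB D i b - xS D (i + 1) (parB D b c') - (tS D i b - tS D (i + 1) (parB D b c')) •
      (WithLp.toLp 2 fun k => (c' k : ℝ) / (D : ℝ) ^ (i + 1) : E n)) l = -((D : ℝ) ^ (i + 1) *
        (((b.T * (c' l - D * b.c l) : ℤ) : ℝ) / (((D : ℤ) ^ 2 : ℤ) : ℝ) -
          ((b.T * (c' l - D * b.c l) / (D : ℤ) ^ 2 : ℤ) : ℝ))) := by
    rw [PiLp.sub_apply, PiLp.sub_apply, PiLp.smul_apply, xS_apply]
    unfold xB tS parB
    simp only [smul_eq_mul]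
    generalize (b.T * (c' l - D * b.c l) / (D : ℤ) ^ 2 : ℤ) = z
    generalize (b.T / (D : ℤ) ^ 2 : ℤ) = w
    push_cast
    field_simp
    ring
  rw [e]
  have := mul_le_of_le_one_right (by positivity : (0:ℝ) ≤ (D : ℝ) ^ (i + 1)) h2
  have := mul_nonneg (by positivity : (0:ℝ) ≤ (D : ℝ) ^ (i + 1)) h1
  constructor <;> linarith

end Vale.Agent.P076N.BR
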