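import Vale.Agent.P076N.BR.Amp
import Vale.Agent.P076N.A.Br

/-! # P076N / BR : roots, the block `t1` -/

set_option linter.all false

open MeasureTheory Finset

namespace Vale.Agent.P076N.BR

open Vale.Agent.P076 Vale.Agent.P076N.A

variable {n : ℕ}

theorem mem_TT4 {L : ℝ} (hL : 0 < L) {η : E n} (h : ‖η‖ ≤ 4) : (fun k => ⌊2 * L * η k⌋) ∈ TT n (4 * L) := by
  have h1 := mem_TT (n := n) (L := 4 * L) (by positivity) (η := (4:ℝ)⁻¹ • η) (by
    rw [norm_smul, norm_inv, Real.norm_ofNat]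
    linarith)
  convert h1 using 3 with k
  simp only [PiLp.smul_apply, smul_eq_mul]
  ring

theorem sum_cel {β : Type*} [AddCommMonoid β] (f : ℂ → β) (hf : f 0 = 0) {L : ℝ} (hL : 0 < L) {G : E n → ℂ}
    (h : Bd 4 G) (η : E n) : ∑ τ ∈ TT n (4 * L), f (Gc L G τ η) = f (G η) := by
  by_cases h0 : G η = 0
  · rw [h0, hf]
    refine Finset.sum_eq_zero fun τ _ => ?_
    unfold Gc
    by_cases hx : η ∈ cel L τ <;> simp [hx, h0, hf]
  · rw [Finset.sum_eq_single (fun k => ⌊2 * L * η k⌋)]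
    · unfold Gc
      rw [Set.indicator_of_mem]
      intro k; rfl
    · intro τ _ hne
      unfold Gc
      rw [Set.indicator_of_notMem, hf]
      intro hc
      exact hne (funext fun k => (hc k).symm)
    · intro hn
      exact absurd (mem_TT4 hL (h.supp η h0)) hn

theorem fam_Gc {L : ℝ} (hL : 0 < L) {G : E n → ℂ} (h : Bd 4 G) (T : Finset (Zv n)) : Fam L T (Gc L G) := by
  refine ⟨fun τ _ => Gc_bd h τ, fun τ _ η hη k => ?_⟩
  have h1 : η ∈ cel L τ := by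
    by_contra hc
    exact hη (Set.indicator_of_notMem hc G)
  refine (cel_near hL h1 k).trans ?_
  gcongr
  norm_num

theorem en_Gc {L : ℝ} (hL : 0 < L) {G : E n → ℂ} (h : Bd 4 G) : ∑ τ ∈ TT n (4 * L), en (Gc L G τ) = en G := by
  unfold en
  rw [← integral_finsetSum _ fun τ _ => (Gc_bd h τ).int_sq']
  congr 1
  ext η
  exact sum_cel (fun z => ‖z‖ ^ 2) (by simp) hL h η

/-- **roots** of the points of space-time -/
theorem roots (n K : ℕ) (hK : 1 ≤ K) : ∃ C : ℝ, 1 ≤ C ∧ ∀ (N : ℕ) (G : E n → ℂ), 2 ≤ N → Bd 4 G →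
    ∃ (F : Amp n (2 ^ N) K C (en G)) (nd : E n × ℝ → Nd n), (∀ p, xpos (nd p) = fl p) ∧ (∀ p, (nd p).T = ⌊p.2⌋) ∧
      ∀ (A : Finset (E n × ℝ)) (α R : ℝ), R < (((2 : ℝ) ^ N) ^ K) ^ 2 → Big G A α R → Rts F (A.image nd) (α / C) := by
  obtain ⟨C, hC, h⟩ := ampx n K hK
  refine ⟨C, hC, fun N G hN hG => ?_⟩
  have hL : (0:ℝ) < ((2 : ℝ) ^ N) ^ K := by positivity
  obtain ⟨F, hroot, -⟩ := h N _ (TT n (4 * ((2 : ℝ) ^ N) ^ K)) (Gc (((2 : ℝ) ^ N) ^ K) G) (en G) hN rfl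
    (fam_Gc hL hG _) (en_Gc hL hG).le
  have eG : (fun η => ∑ τ ∈ TT n (4 * ((2 : ℝ) ^ N) ^ K), Gc (((2 : ℝ) ^ N) ^ K) G τ η) = G :=
    funext fun η => sum_cel id rfl hL hG η
  rw [eG] at hroot
  have ht : ∀ p : E n × ℝ, |p.2 - (⌊p.2⌋ : ℤ)| ≤ 1 := by
    intro p
    have h1 := Int.floor_le p.2
    have h2 := Int.lt_floor_add_one p.2
    rw [abs_le]; constructor <;> linarith
  choose cc hcc using fun p : E n × ℝ => hroot p (fl p) ⌊p.2⌋ (fl_close' p) (ht p)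
  refine ⟨F, fun p => ⟨cc p, fun l => fl p l - ⌊p.2⌋ * cc p l, ⌊p.2⌋⟩, fun p => ?_, fun p => rfl, ?_⟩
  · funext l
    simp only [xpos]
    ring
  · intro A α R hR hbig x hx
    obtain ⟨p, hp, rfl⟩ := Finset.mem_image.1 hx
    obtain ⟨t0, t1, t2⟩ := hbig p hp
    refine ⟨(hcc p).1, Int.floor_nonneg.2 t0, ?_, ?_⟩
    · show ⌊p.2⌋ < (((2 ^ N : ℕ) : ℤ)) ^ (2 * K)
      rw [Int.floor_lt]
      push_cast
      rw [mul_comm 2 K, pow_mul]
      linarith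
    · rw [div_le_iff₀' (by linarith)]
      exact t2.trans (hcc p).2

theorem scale (K N₀ : ℕ) (hK : 1 ≤ K) : ∃ C' : ℝ, 1 ≤ C' ∧ ∀ ℓ : ℝ, 1 ≤ ℓ →
    ∃ N, N₀ ≤ N ∧ ℓ < ((2 : ℝ) ^ N) ^ K ∧ ((2 : ℝ) ^ N) ^ K ≤ C' * ℓ := by
  have hy : (1:ℝ) < (2:ℝ) ^ K := one_lt_pow₀ (by norm_num) (by omega)
  refine ⟨((2:ℝ) ^ K) ^ (1 + N₀), one_le_pow₀ hy.le, fun ℓ hℓ => ?_⟩
  obtain ⟨j, h1, h2⟩ := exists_nat_pow_near hℓ hy
  have e : ((2 : ℝ) ^ (j + 1 + N₀)) ^ K = ((2:ℝ) ^ K) ^ (j + 1 + N₀) := by rw [← pow_mul, ← pow_mul, mul_comm]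
  refine ⟨j + 1 + N₀, by omega, ?_, ?_⟩
  · rw [e]
    exact h2.trans_le (pow_le_pow_right₀ hy.le (by omega))
  · rw [e, add_assoc, pow_add, mul_comm]
    gcongr

theorem rpow_scale {ℓ L C' : ℝ} (hℓ : 1 ≤ ℓ) (h1 : ℓ ≤ L) (h2 : L ≤ C' * ℓ) (hC : 1 ≤ C') (a : ℝ) :
    L ^ a ≤ C' ^ |a| * ℓ ^ a := by
  have h0 : 0 < ℓ := by linarith
  rcases le_total 0 a with ha | ha
  · rw [abs_of_nonneg ha, ← Real.mul_rpow (by linarith) h0.le]
    exact Real.rpow_le_rpow (by linarith) h2 ha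
  · calc L ^ a ≤ ℓ ^ a := Real.rpow_le_rpow_of_nonpos h0 h1 ha
      _ ≤ _ := le_mul_of_one_le_left (by positivity) (Real.one_le_rpow hC (abs_nonneg a))

theorem pw_eq (N K : ℕ) (e : ℝ) : ((2 : ℝ) ^ N) ^ (K * e : ℝ) = (((2 : ℝ) ^ N) ^ K) ^ e := by
  rw [← Real.rpow_natCast ((2 : ℝ) ^ N) K, ← Real.rpow_mul (by positivity)]

theorem card_le_img {α β : Type*} [DecidableEq β] (A : Finset α) (f : α → β) {W : ℝ}
    (h : ∀ x, (#(A.filter fun p => f p = x) : ℝ) ≤ W) : (#A : ℝ) ≤ W * #(A.image f) := by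
  have e : (#A : ℝ) = ∑ x ∈ A.image f, (#(A.filter fun p => f p = x) : ℝ) := by
    exact_mod_cast Finset.card_eq_sum_card_image f A
  rw [e, mul_comm, ← nsmul_eq_mul]
  exact Finset.sum_le_card_nsmul _ _ _ fun x _ => h x

theorem card_filter_img {α β : Type*} [DecidableEq β] (A : Finset α) (f : α → β) (P : β → Prop) [DecidablePred P]
    (P' : α → Prop) [DecidablePred P'] (h : ∀ p ∈ A, P (f p) → P' p) :
    #((A.image f).filter P) ≤ #(A.filter P') := by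
  refine le_trans (Finset.card_le_card (t := (A.filter P').image f) ?_) Finset.card_image_le
  intro x hx
  obtain ⟨hx1, hx2⟩ := Finset.mem_filter.1 hx
  obtain ⟨p, hp, rfl⟩ := Finset.mem_image.1 hx1
  exact Finset.mem_image.2 ⟨p, Finset.mem_filter.2 ⟨hp, h p hp hx2⟩, rfl⟩

theorem en_nonneg (G : E n → ℂ) : 0 ≤ en G := integral_nonneg fun η => by positivity

/-- **the block `t1`** -/
theorem t1 (m : ℕ) (hT : AT1 m) : T1 m := by
  classical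
  intro ε hε B
  obtain ⟨K, hK, hT1⟩ := hT (2 * ε) (by positivity)
  obtain ⟨C, hC, hR⟩ := roots m K hK
  rcases lt_or_ge B 0 with hB | hB0
  · exact ⟨0, fun R G A α _ _ _ hG => absurd (gph_nonneg hG) (not_le.2 hB)⟩
  obtain ⟨W, hW⟩ : ∃ W : ℝ, W = B * ((m : ℝ) + 1) ^ m := ⟨_, rfl⟩
  have hW0 : 0 ≤ W := by rw [hW]; positivity
  obtain ⟨N₀, hT2⟩ := hT1 C (max 1 W) hC (le_max_left _ _)
  obtain ⟨C', hC', hs⟩ := scale K (max N₀ 2) hK
  set e : ℝ := 2 * m / (m + 1) + 2 * ε with he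
  refine ⟨C ^ 2 * W * C' ^ |e|, fun R G A α hR1 hα hG hA hbig => ?_⟩
  have hℓ : 1 ≤ Real.sqrt R := Real.one_le_sqrt.mpr hR1
  obtain ⟨N, hN, h1, h2⟩ := hs _ hℓ
  obtain ⟨F, nd, hx, -, hrt⟩ := hR N G ((le_max_right _ _).trans hN) hG
  have hfib : ∀ y, (#(A.filter fun p => fl p = y) : ℝ) ≤ W := fun y => by
    rw [hW]; convert fib_card hA y
  have hC0 : 0 < C := by linarith
  have hRL : R < (((2 : ℝ) ^ N) ^ K) ^ 2 := by
    rw [← Real.sq_sqrt (by linarith : 0 ≤ R)]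
    exact pow_lt_pow_left₀ h1 (by linarith) (by norm_num)
  have k1 := hT2 N ((le_max_left _ _).trans hN) (en G) F (A.image nd) (α / C) (by positivity) (hrt A α R hRL hbig)
    (fun y => le_trans (Nat.cast_le.2 (card_filter_img A nd _ _ fun p _ h => (hx p).symm.trans h))
      ((hfib y).trans (le_max_right _ _)))
  have hcard : (#A : ℝ) ≤ W * #(A.image nd) := by
    refine card_le_img A nd fun x => le_trans (Nat.cast_le.2 (Finset.card_le_card fun p hp => ?_)) (hfib (xpos x))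
    rw [Finset.mem_filter] at hp ⊢
    exact ⟨hp.1, by rw [← hp.2, hx]⟩
  rw [pw_eq] at k1
  have k2 := rpow_scale hℓ h1.le h2 hC' e
  have k3 : Real.sqrt R ^ e = R ^ ((m : ℝ) / (m + 1) + ε) := by
    rw [Real.sqrt_eq_rpow, ← Real.rpow_mul (by linarith), he]
    congr 1
    ring
  rw [k3] at k2
  have hen := en_nonneg G
  calc α ^ 2 * (#A : ℝ) ≤ α ^ 2 * (W * #(A.image nd)) := mul_le_mul_of_nonneg_left hcard (by positivity)
    _ = C ^ 2 * W * ((α / C) ^ 2 * #(A.image nd)) := by field_simp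
    _ ≤ C ^ 2 * W * ((C' ^ |e| * R ^ ((m : ℝ) / (m + 1) + ε)) * en G) := by
        refine mul_le_mul_of_nonneg_left (k1.trans ?_) (by positivity)
        gcongr
    _ = _ := by ring

end Vale.Agent.P076N.BR
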