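import Vale.Agent.P076N.BR.T1

/-! # P076N / BR : window graphs, the block `t3` -/

set_option linter.all false

open MeasureTheory Finset

namespace Vale.Agent.P076N.BR

open Vale.Agent.P076 Vale.Agent.P076N.A

variable {n : ℕ}

theorem wg_nonneg {B ℓ : ℝ} {A : Finset (E n × ℝ)} (h : WG B ℓ A) : 0 ≤ B := le_trans (Nat.cast_nonneg _) (h 0 0)

open Classical in
theorem wg_fib {B ℓ : ℝ} {A : Finset (E n × ℝ)} (h : WG B ℓ A) (y : Zv n) (s : ℝ) :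
    (#(A.filter fun p => fl p = y ∧ |p.2 - s| ≤ ℓ) : ℝ) ≤ B * ((n : ℝ) + 1) ^ n := by
  have h1 : Gph B (A.filter fun p => |p.2 - s| ≤ ℓ) := by
    intro z
    refine le_trans (le_of_eq ?_) (h z s)
    congr 2
    ext p
    simp only [mem_filter]
    tauto
  refine le_trans (le_of_eq ?_) (fib_card h1 y)
  congr 2
  ext p
  simp only [mem_filter]
  tauto

open Classical in
/-- at most `W` points in a unit cube of space-time -/
theorem wg_unit {B ℓ : ℝ} (hℓ : 1 ≤ ℓ) {A : Finset (E n × ℝ)} (h : WG B ℓ A) (y : Zv n) (s : ℤ) :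
    (#(A.filter fun p => fl p = y ∧ ⌊p.2⌋ = s) : ℝ) ≤ B * ((n : ℝ) + 1) ^ n := by
  refine le_trans (Nat.cast_le.2 (Finset.card_le_card fun p hp => ?_)) (wg_fib h y s)
  rw [Finset.mem_filter] at hp ⊢
  refine ⟨hp.1, hp.2.1, ?_⟩
  have h1 := Int.floor_le p.2
  have h2 := Int.lt_floor_add_one p.2
  rw [hp.2.2] at h1 h2
  rw [abs_le]; constructor <;> linarith

open Classical in
/-- windows of length `q ≤ C' ℓ` -/
theorem wg_long {B ℓ C' : ℝ} (hℓ : 1 ≤ ℓ) {A : Finset (E n × ℝ)} (h : WG B ℓ A) {q : ℤ} (hq : 0 < q)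
    (hqC : (q : ℝ) ≤ C' * ℓ) (y : Zv n) (s : ℤ) :
    (#(A.filter fun p => fl p = y ∧ ⌊p.2⌋ / q = s) : ℝ) ≤ (⌊C'⌋₊ + 1) * (B * ((n : ℝ) + 1) ^ n) := by
  have hℓ0 : 0 < ℓ := by linarith
  have hsub : (A.filter fun p => fl p = y ∧ ⌊p.2⌋ / q = s) ⊆ (Finset.range (⌊C'⌋₊ + 1)).biUnion fun i =>
      A.filter fun p => fl p = y ∧ |p.2 - (s * q + ℓ * i)| ≤ ℓ := by
    intro p hp
    obtain ⟨h1, h2, h3⟩ := Finset.mem_filter.mp hp
    have a1 : s * q ≤ ⌊p.2⌋ := by rw [← h3]; exact Int.ediv_mul_le _ hq.ne'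
    have a2 : ⌊p.2⌋ < (s + 1) * q := by rw [← h3]; exact Int.lt_ediv_add_one_mul_self _ hq
    have a3 : ((s * q : ℤ) : ℝ) ≤ p.2 := Int.le_floor.mp a1
    have a4 : p.2 < (((s + 1) * q : ℤ) : ℝ) := Int.floor_lt.mp a2
    push_cast at a3 a4
    have a5 : 0 ≤ (p.2 - s * q) / ℓ := by apply div_nonneg <;> linarith
    have a6 : (p.2 - s * q) / ℓ ≤ C' := by rw [div_le_iff₀ hℓ0]; linarith
    refine Finset.mem_biUnion.mpr ⟨⌊(p.2 - s * q) / ℓ⌋₊, Finset.mem_range.mpr (Nat.lt_succ_of_le (Nat.floor_mono a6)),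
      Finset.mem_filter.mpr ⟨h1, h2, ?_⟩⟩
    have a7 := Nat.floor_le a5
    have a8 := Nat.lt_floor_add_one ((p.2 - s * q) / ℓ)
    rw [le_div_iff₀ hℓ0] at a7
    rw [div_lt_iff₀ hℓ0] at a8
    rw [abs_le]; constructor <;> linarith
  calc (#(A.filter fun p => fl p = y ∧ ⌊p.2⌋ / q = s) : ℝ)
      ≤ ∑ i ∈ Finset.range (⌊C'⌋₊ + 1), (#(A.filter fun p => fl p = y ∧ |p.2 - (s * q + ℓ * i)| ≤ ℓ) : ℝ) := by
        exact_mod_cast (Finset.card_le_card hsub).trans Finset.card_biUnion_le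
    _ ≤ ∑ _i ∈ Finset.range (⌊C'⌋₊ + 1), B * ((n : ℝ) + 1) ^ n := Finset.sum_le_sum fun i _ => wg_fib h y _
    _ = _ := by simp

theorem wga_img {B ℓ C' : ℝ} (hℓ : 1 ≤ ℓ) {A : Finset (E n × ℝ)} (h : WG B ℓ A) {q : ℤ} (hq : 0 < q)
    (hqC : (q : ℝ) ≤ C' * ℓ) {nd : E n × ℝ → Nd n} (hx : ∀ p, xpos (nd p) = fl p) (ht : ∀ p, (nd p).T = ⌊p.2⌋) :
    WGA (max 1 ((⌊C'⌋₊ + 1) * (B * ((n : ℝ) + 1) ^ n))) q (A.image nd) := by
  classical
  intro y s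
  refine le_trans (Nat.cast_le.2 (card_filter_img A nd _ _ fun p _ h => ?_))
    ((wg_long hℓ h hq hqC y s).trans (le_max_right _ _))
  exact ⟨(hx p).symm.trans h.1, by rw [← ht]; exact h.2⟩

theorem card_nd {B ℓ : ℝ} (hℓ : 1 ≤ ℓ) {A : Finset (E n × ℝ)} (h : WG B ℓ A) {nd : E n × ℝ → Nd n}
    (hx : ∀ p, xpos (nd p) = fl p) (ht : ∀ p, (nd p).T = ⌊p.2⌋) :
    (#A : ℝ) ≤ B * ((n : ℝ) + 1) ^ n * #(A.image nd) := by
  classical
  refine card_le_img A nd fun x => le_trans (Nat.cast_le.2 (Finset.card_le_card fun p hp => ?_))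
    (wg_unit hℓ h (xpos x) x.T)
  rw [Finset.mem_filter] at hp ⊢
  exact ⟨hp.1, by rw [← hp.2, hx], by rw [← hp.2, ht]⟩

theorem floor_two {τ τ' x : ℝ} (hτ : 0 < τ) (h : τ ≤ τ') :
    ⌊x / τ'⌋ ∈ Finset.Icc ⌊(⌊x / τ⌋ : ℝ) * τ / τ'⌋ (⌊(⌊x / τ⌋ : ℝ) * τ / τ'⌋ + 1) := by
  have hτ' : 0 < τ' := hτ.trans_le h
  have h1 := Int.floor_le (x / τ)
  have h2 := Int.lt_floor_add_one (x / τ)
  rw [le_div_iff₀ hτ] at h1
  rw [div_lt_iff₀ hτ] at h2
  rw [Finset.mem_Icc]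
  constructor
  · exact Int.floor_mono (by gcongr)
  · rw [← Int.floor_add_one]
    refine Int.floor_mono ?_
    rw [div_add_one hτ'.ne']
    gcongr
    linarith

/-- cubes of integer side `τ' ≥ τ` against cubes of side `τ` -/
theorem card_cub {τ : ℝ} (hτ : 0 < τ) {τ' : ℕ} (h : τ ≤ τ') (A : Finset (E n × ℝ)) {nd : E n × ℝ → Nd n}
    (hx : ∀ p, xpos (nd p) = fl p) (ht : ∀ p, (nd p).T = ⌊p.2⌋) :
    (#((A.image nd).image fun x => (dv τ' (xpos x), x.T / τ')) : ℝ) ≤ 2 ^ (n + 1) * #(A.image (cub τ)) := by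
  classical
  set opts : (Fin n → ℤ) × ℤ → Finset ((Fin n → ℤ) × ℤ) := fun k =>
    (Fintype.piFinset fun l => Finset.Icc ⌊(k.1 l : ℝ) * τ / τ'⌋ (⌊(k.1 l : ℝ) * τ / τ'⌋ + 1)) ×ˢ
      Finset.Icc ⌊(k.2 : ℝ) * τ / τ'⌋ (⌊(k.2 : ℝ) * τ / τ'⌋ + 1) with hopts
  have hsub : ((A.image nd).image fun x => (dv τ' (xpos x), x.T / τ')) ⊆ (A.image (cub τ)).biUnion opts := by
    intro z hz
    obtain ⟨x, hx1, rfl⟩ := Finset.mem_image.mp hz
    obtain ⟨p, hp, rfl⟩ := Finset.mem_image.mp hx1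
    refine Finset.mem_biUnion.mpr ⟨cub τ p, Finset.mem_image_of_mem _ hp, ?_⟩
    rw [hopts]
    refine Finset.mem_product.mpr ⟨Fintype.mem_piFinset.mpr fun l => ?_, ?_⟩
    · rw [hx]
      show ⌊p.1 l⌋ / (τ' : ℤ) ∈ _
      rw [← Int.floor_div_natCast]
      exact floor_two hτ h
    · rw [ht]
      show ⌊p.2⌋ / (τ' : ℤ) ∈ _
      rw [← Int.floor_div_natCast]
      exact floor_two hτ h
  have hc : ∀ k, #(opts k) = 2 ^ (n + 1) := by
    intro k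
    rw [hopts]
    simp only [Finset.card_product, Fintype.card_piFinset, Int.card_Icc]
    have e : ∀ a : ℤ, (a + 1 + 1 - a).toNat = 2 := fun a => by
      rw [show a + 1 + 1 - a = 2 by ring]; rfl
    simp [e, pow_succ]
  have h1 := (Finset.card_le_card hsub).trans Finset.card_biUnion_le
  rw [Finset.sum_congr rfl fun k _ => hc k, Finset.sum_const, smul_eq_mul, mul_comm] at h1
  exact_mod_cast h1

theorem prof_le {s s' τ τ' : ℝ} (hs : 0 < s) (h1 : s ≤ s') (hτ : 0 ≤ τ') (h2 : τ' ≤ 2 * τ) (m : ℕ) :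
    prof m s' τ' ≤ 2 ^ (m + 1) * ((1 + τ / s) ^ m * (1 + τ / s ^ 2)) := by
  have hs' : 0 < s' := hs.trans_le h1
  have hτ0 : 0 ≤ τ := by linarith
  unfold prof
  have a1 : 1 + τ' / s' ≤ 2 * (1 + τ / s) := by
    have : τ' / s' ≤ 2 * τ / s := by gcongr
    rw [mul_div_assoc] at this
    linarith
  have a2 : 1 + τ' / s' ^ 2 ≤ 2 * (1 + τ / s ^ 2) := by
    have : τ' / s' ^ 2 ≤ 2 * τ / s ^ 2 := by gcongr
    rw [mul_div_assoc] at this
    linarith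
  calc (1 + τ' / s') ^ m * (1 + τ' / s' ^ 2) ≤ (2 * (1 + τ / s)) ^ m * (2 * (1 + τ / s ^ 2)) := by gcongr
    _ = _ := by rw [mul_pow, pow_succ]; ring

open Classical in
/-- the trivial bound, at most `W` points in a unit cube -/
theorem trivW (n : ℕ) : ∃ C : ℝ, 0 ≤ C ∧ ∀ (R W : ℝ) (G : E n → ℂ) (A : Finset (E n × ℝ)), 1 ≤ R → 0 ≤ W → Bd 4 G →
    (∀ p ∈ A, 0 ≤ p.2 ∧ p.2 ≤ R) → (∀ (y : Zv n) (s : ℤ), (#(A.filter fun p => fl p = y ∧ ⌊p.2⌋ = s) : ℝ) ≤ W) →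
    ∑ p ∈ A, ‖Uu G p‖ ^ 2 ≤ C * W * R * en G := by
  obtain ⟨C, hC, h⟩ := P076T.triv n 4
  refine ⟨C, hC, fun R W G A hR hW hG ht hA => ?_⟩
  set key : E n × ℝ → Zv n × ℤ := fun p => (fl p, ⌊p.2⌋) with hkey
  have hex : ∀ k : Zv n × ℤ, ∃ q : E n × ℝ, k ∈ A.image key → q ∈ A ∧ key q = k ∧
      ∀ p ∈ A.filter (fun p => key p = k), ‖Uu G p‖ ^ 2 ≤ ‖Uu G q‖ ^ 2 := by
    intro k
    by_cases hk : k ∈ A.image key
    · obtain ⟨p, hp, hpk⟩ := Finset.mem_image.mp hk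
      obtain ⟨q, hq, hmax⟩ := Finset.exists_max_image (A.filter fun p => key p = k) (fun p => ‖Uu G p‖ ^ 2)
        ⟨p, Finset.mem_filter.mpr ⟨hp, hpk⟩⟩
      exact ⟨q, fun _ => ⟨(Finset.mem_filter.mp hq).1, (Finset.mem_filter.mp hq).2, hmax⟩⟩
    · exact ⟨0, fun h => absurd h hk⟩
  choose mx hmx using hex
  have k1 := h R G (A.image key) (fun k => (mx k).1) (fun k => (mx k).2) hR hG.meas hG.bdd
    (fun η hη i => (P076T.abs_apply_le η i).trans (hG.supp η hη)) (fun k hk => (ht _ (hmx k hk).1).1)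
    (fun k hk => (ht _ (hmx k hk).1).2) (fun k hk k' hk' h1 h2 => by
      rw [← (hmx k hk).2.1, ← (hmx k' hk').2.1]
      exact Prod.ext (funext h1) h2)
  calc ∑ p ∈ A, ‖Uu G p‖ ^ 2 = ∑ k ∈ A.image key, ∑ p ∈ A.filter (fun p => key p = k), ‖Uu G p‖ ^ 2 :=
        (Finset.sum_fiberwise_of_maps_to (fun p hp => Finset.mem_image_of_mem key hp) _).symm
    _ ≤ ∑ k ∈ A.image key, W * ‖Uu G (mx k)‖ ^ 2 := by
        refine Finset.sum_le_sum fun k hk => (Finset.sum_le_card_nsmul _ _ _ (hmx k hk).2.2).trans ?_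
        rw [nsmul_eq_mul]
        refine mul_le_mul_of_nonneg_right (le_trans (le_of_eq ?_) (hA k.1 k.2)) (by positivity)
        congr 2
        ext p
        simp only [mem_filter, hkey, Prod.ext_iff]
    _ ≤ W * (C * R * en G) := by
        rw [← Finset.mul_sum]
        exact mul_le_mul_of_nonneg_left k1 hW
    _ = _ := by ring

theorem small_pow {ℓ ℓ₀ κ a : ℝ} (hℓ : 1 ≤ ℓ) (h : ℓ ≤ ℓ₀) (hκ : 0 ≤ κ) (ha : -κ ≤ a) (k : ℕ) :
    ℓ ^ k ≤ ℓ₀ ^ (k + κ) * ℓ ^ a := by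
  have h0 : 0 < ℓ := by linarith
  calc ℓ ^ k = ℓ ^ (k + κ) * ℓ ^ (-κ) := by
        rw [← Real.rpow_add h0, ← Real.rpow_natCast]
        congr 1
        ring
    _ ≤ _ := mul_le_mul (Real.rpow_le_rpow h0.le h (by positivity)) (Real.rpow_le_rpow_of_exponent_le hℓ ha)
        (by positivity) (Real.rpow_nonneg (by linarith) _)

theorem big_sum {G : E n → ℂ} {A : Finset (E n × ℝ)} {α T : ℝ} (hα : 0 ≤ α) (h : Big G A α T) :
    α ^ 2 * #A ≤ ∑ p ∈ A, ‖Uu G p‖ ^ 2 := by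
  rw [mul_comm, ← nsmul_eq_mul]
  exact Finset.card_nsmul_le_sum _ _ _ fun p hp => pow_le_pow_left₀ hα (h p hp).2.2 2

/-- **the block `t3`** -/
theorem t3 (d : ℕ) (hT : AT3 d) : T3 d := by
  classical
  intro η hη
  have hd : (0:ℝ) ≤ d := Nat.cast_nonneg d
  set η' : ℝ := min η 1 / 2 with hη'
  have h0 : 0 < η' := by positivity
  have h1' : η' ≤ η / 2 := by have := min_le_left η 1; linarith
  have h2' : η' ≤ 1 / 2 := by have := min_le_right η 1; linarith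
  obtain ⟨κ, hκ, K, hK, hT1⟩ := hT η' h0
  obtain ⟨C, hC, hR⟩ := roots d K hK
  obtain ⟨Ct, hCt, htr⟩ := trivW d
  refine ⟨κ, hκ, fun B => ?_⟩
  rcases lt_or_ge B 0 with hB | hB0
  · exact ⟨0, fun ℓ G A α _ _ _ hG => absurd (wg_nonneg hG) (not_le.2 hB)⟩
  obtain ⟨W, hW⟩ : ∃ W : ℝ, W = B * ((d : ℝ) + 1) ^ d := ⟨_, rfl⟩
  have hW0 : 0 ≤ W := by rw [hW]; positivity
  obtain ⟨C0, hC0, hs0⟩ := scale K 0 hK
  obtain ⟨N₀, hT2⟩ := hT1 C (max 1 ((⌊C0⌋₊ + 1) * W)) hC (le_max_left _ _)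
  set e : ℝ := 2 * ((d : ℝ) + 1) / (d + 2) with he
  have he0 : 0 ≤ e := by positivity
  set X : ℝ := 4 ^ (d + 1) * C0 * (W + 1) with hX
  have hX0 : 0 < X := by positivity
  set ℓ₀ : ℝ := max (((2 : ℝ) ^ (max N₀ 2)) ^ K) (X ^ (2 / η)) with hℓ₀
  have hℓ₀0 : 0 ≤ ℓ₀ := le_trans (by positivity) (le_max_left _ _)
  set C1 : ℝ := Ct * W * ℓ₀ ^ ((2:ℕ) + κ) with hC1
  set C2 : ℝ := C ^ 2 * W * C0 ^ |e + η'| with hC2
  set C3 : ℝ := C ^ 2 * W * C0 ^ |e - κ| with hC3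
  have p1 : 0 ≤ C1 := by positivity
  have p2 : 0 ≤ C2 := by positivity
  have p3 : 0 ≤ C3 := by positivity
  refine ⟨C1 + C2 + C3, fun ℓ G A α hℓ hα hG hA hbig => ?_⟩
  have hen := en_nonneg G
  have hℓ0 : 0 < ℓ := by linarith
  rcases le_or_gt ℓ ℓ₀ with hs | hl
  · have k1 := (big_sum hα hbig).trans (htr (ℓ ^ 2) W G A (one_le_pow₀ hℓ) hW0 hG
      (fun p hp => ⟨(hbig p hp).1, (hbig p hp).2.1⟩) fun y s => by rw [hW]; convert wg_unit hℓ hA y s)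
    have k2 : ∀ a : ℝ, -κ ≤ a → α ^ 2 * #A ≤ (C1 + C2 + C3) * ℓ ^ a * en G := by
      intro a ha
      calc α ^ 2 * #A ≤ Ct * W * ℓ ^ 2 * en G := k1
        _ ≤ Ct * W * (ℓ₀ ^ ((2:ℕ) + κ) * ℓ ^ a) * en G := by
            gcongr
            exact small_pow hℓ hs hκ.le ha 2
        _ = C1 * ℓ ^ a * en G := by rw [hC1]; ring
        _ ≤ _ := by gcongr; linarith
    exact ⟨k2 _ (by linarith), fun _ => k2 _ (by linarith)⟩
  obtain ⟨N, -, h1, h2⟩ := hs0 ℓ hℓ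
  have hN : max N₀ 2 ≤ N := le_of_pow_le hK (((le_max_left _ _).trans hl.le).trans h1.le)
  obtain ⟨F, nd, hx, ht, hrt⟩ := hR N G ((le_max_right _ _).trans hN) hG
  set L : ℝ := ((2 : ℝ) ^ N) ^ K with hL
  have hL0 : 0 < L := by positivity
  have hC0' : 0 < C := by linarith
  have hRL : ℓ ^ 2 < L ^ 2 := pow_lt_pow_left₀ h1 hℓ0.le (by norm_num)
  have hwga := wga_img hℓ hA (q := ((2 : ℤ) ^ N) ^ K) (C' := C0) (by positivity) (by push_cast; exact h2) hx ht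
  rw [← hW] at hwga
  obtain ⟨k1, k2⟩ := hT2 N ((le_max_left _ _).trans hN) (en G) F (A.image nd) (α / C) (by positivity)
    (hrt A α _ hRL hbig) hwga
  have hcard := card_nd hℓ hA hx ht
  rw [← hW] at hcard
  have fin : ∀ a : ℝ, (α / C) ^ 2 * #(A.image nd) ≤ L ^ a * en G →
      α ^ 2 * #A ≤ C ^ 2 * W * C0 ^ |a| * ℓ ^ a * en G := by
    intro a k
    have k3 := rpow_scale hℓ h1.le h2 hC0 a
    calc α ^ 2 * (#A : ℝ) ≤ α ^ 2 * (W * #(A.image nd)) := mul_le_mul_of_nonneg_left hcard (by positivity)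
      _ = C ^ 2 * W * ((α / C) ^ 2 * #(A.image nd)) := by field_simp
      _ ≤ C ^ 2 * W * ((C0 ^ |a| * ℓ ^ a) * en G) := by
          refine mul_le_mul_of_nonneg_left (k.trans ?_) (by positivity)
          gcongr
      _ = _ := by ring
  rw [pw_eq] at k1
  constructor
  · refine (fin _ k1).trans ?_
    have : ℓ ^ (e + η') ≤ ℓ ^ (e + η) := Real.rpow_le_rpow_of_exponent_le hℓ (by linarith)
    gcongr
    linarith
  · intro hyp
    have k3 := k2 ?_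
    · rw [pw_eq] at k3
      refine (fin _ k3).trans ?_
      gcongr
      linarith
    rcases hyp with hyp | ⟨τ, hτ, hyp⟩
    · left
      rw [pw_eq]
      calc (#(A.image nd) : ℝ) ≤ #A := by exact_mod_cast Finset.card_image_le
        _ ≤ ℓ ^ (2 * (d : ℝ) + 1 - η) := hyp
        _ ≤ ℓ ^ (2 * (d : ℝ) + 1 - η') := Real.rpow_le_rpow_of_exponent_le hℓ (by linarith)
        _ ≤ _ := Real.rpow_le_rpow hℓ0.le h1.le (by linarith)
    · right
      have hτ' : τ ≤ ⌈τ⌉₊ := Nat.le_ceil τ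
      have hτ2 : (⌈τ⌉₊ : ℝ) ≤ 2 * τ := by
        have := Nat.ceil_lt_add_one (by linarith : 0 ≤ τ)
        linarith
      refine ⟨⌈τ⌉₊, by exact_mod_cast hτ.trans hτ', ?_⟩
      have a1 := card_cub (by linarith : 0 < τ) hτ' A hx ht
      have a2 : ((2 : ℝ) ^ N) ^ ((K : ℝ) / (d + 2)) = L ^ (1 / ((d : ℝ) + 2)) := by
        rw [hL, ← pw_eq]
        congr 1
        ring
      have a3 := prof_le (s := ℓ ^ (1 / ((d : ℝ) + 2))) (s' := L ^ (1 / ((d : ℝ) + 2))) (by positivity)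
        (Real.rpow_le_rpow hℓ0.le h1.le (by positivity)) (Nat.cast_nonneg ⌈τ⌉₊) hτ2 d
      set P : ℝ := (1 + τ / ℓ ^ (1 / ((d : ℝ) + 2))) ^ d * (1 + τ / (ℓ ^ (1 / ((d : ℝ) + 2))) ^ 2) with hP
      have hP0 : 0 ≤ P := by
        have : 0 ≤ τ := by linarith
        positivity
      have a4 : L ^ η' ≤ C0 * ℓ ^ η' := by
        refine (rpow_scale hℓ h1.le h2 hC0 η').trans (mul_le_mul_of_nonneg_right ?_ (by positivity))
        rw [abs_of_pos h0]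
        calc C0 ^ η' ≤ C0 ^ (1:ℝ) := Real.rpow_le_rpow_of_exponent_le hC0 (by linarith)
          _ = C0 := Real.rpow_one _
      have a5 : X * ℓ ^ η' ≤ ℓ ^ η := by
        have b1 : X ≤ ℓ ^ (η / 2) := by
          calc X = (X ^ (2 / η)) ^ (η / 2) := by
                rw [← Real.rpow_mul hX0.le, show 2 / η * (η / 2) = 1 by field_simp, Real.rpow_one]
            _ ≤ _ := Real.rpow_le_rpow (by positivity) ((le_max_right _ _).trans hl.le) (by positivity)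
        calc X * ℓ ^ η' ≤ ℓ ^ (η / 2) * ℓ ^ (η / 2) := by
              gcongr
          _ = _ := by rw [← Real.rpow_add hℓ0]; congr 1; ring
      rw [pw_eq, a2]
      have a6 : (W + 1) * ((#((A.image nd).image fun x => (dv (⌈τ⌉₊ : ℤ) (xpos x), x.T / (⌈τ⌉₊ : ℤ))) : ℝ) * L ^ η' *
          prof d (L ^ (1 / ((d : ℝ) + 2))) ⌈τ⌉₊) ≤ (W + 1) * #(A.image nd) := by
        calc _ ≤ (W + 1) * ((2 ^ (d + 1) * #(A.image (cub τ))) * (C0 * ℓ ^ η') * (2 ^ (d + 1) * P)) := by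
              gcongr
              unfold prof
              positivity
          _ = #(A.image (cub τ)) * (X * ℓ ^ η') * P := by
              rw [hX, show (4:ℝ) ^ (d + 1) = 2 ^ (d + 1) * 2 ^ (d + 1) by rw [← mul_pow]; norm_num]
              ring
          _ ≤ #(A.image (cub τ)) * ℓ ^ η * P := by gcongr
          _ ≤ #A := hyp
          _ ≤ W * #(A.image nd) := hcard
          _ ≤ _ := by gcongr; linarith
      exact le_of_mul_le_mul_left a6 (by linarith)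

end Vale.Agent.P076N.BR
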