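import Vale.Agent.P076N.BR.T4a

/-! # P076N / BR : the block `t4` -/

set_option linter.all false

open MeasureTheory Finset

namespace Vale.Agent.P076N.BR

open Vale.Agent.P076 Vale.Agent.P076N.A Vale.Agent.P076T

variable {n : ℕ}

/-- the centre of the chain node is in the cube of a deep point -/
theorem cub_ch {D K y : ℕ} (hD : 2 ≤ D) (hy : y ≤ K) {ρ : ℝ} (hρ : (21 * n + 3) * ((D : ℝ) ^ y) ^ 2 ≤ ρ / 4)
    {p : E n × ℝ} (hp : ∀ p' : E n × ℝ, ‖p'.1 - p.1‖ ≤ ρ / 4 → |p'.2 - p.2| ≤ ρ / 4 → cub ρ p' = cub ρ p)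
    {x : Nd n} (hx : xpos x = fl p) (ht : x.T = ⌊p.2⌋) (hc : ∀ l, |x.c l| ≤ 10) {τ : Zv n} (hτ : τ ∈ below D K x.c) :
    cub ρ (xS D y (ch D K 0 x τ y), tS D y (ch D K 0 x τ y)) = cub ρ p := by
  obtain ⟨h1, h2⟩ := ch_near hD hc hτ y hy
  have hn : (0:ℝ) ≤ n := Nat.cast_nonneg n
  have hD2 : (2:ℝ) ≤ D := by exact_mod_cast hD
  have hr : (1:ℝ) ≤ ((D : ℝ) ^ y) ^ 2 := one_le_pow₀ (one_le_pow₀ (by linarith))
  refine hp _ ?_ ?_
  · refine (norm_le_mul (r := 21 * ((D : ℝ) ^ y) ^ 2) fun l => ?_).trans (by nlinarith)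
    have a1 := abs_le.mp (h2 l)
    have a2 := abs_le.mp (fl_close' p l)
    have e : xS D 0 x l = fl p l := by
      unfold xS
      rw [hx]
      simp [toV]
    simp only [PiLp.sub_apply] at a1 ⊢
    rw [e] at a1
    rw [abs_le]
    constructor <;> linarith [a1.1, a1.2, a2.1, a2.2]
  · have a1 := abs_le.mp h1
    have e : tS D 0 x = ⌊p.2⌋ := by
      unfold tS
      rw [ht]
      simp
    rw [e] at a1
    have a2 := Int.floor_le p.2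
    have a3 := Int.lt_floor_add_one p.2
    rw [abs_le]
    constructor <;> nlinarith [a1.1, a1.2]

open Classical in
/-- roots for `T4` -/
theorem roots4 (n : ℕ) : ∃ C C3 : ℝ, 1 ≤ C ∧ 0 < C3 ∧ ∀ (N K y j : ℕ) (ρ : ℝ) (G : E n → ℂ) (A : Finset (E n × ℝ))
    (α : ℝ) (S : (Fin n → ℤ) × ℤ → Finset (Fin n → ℤ)) (s : ℝ), 2 ≤ N → 1 ≤ y → y ≤ K → j ≤ N * y + 1 → Bd 4 G →
    (21 * n + 3) * (((2 : ℝ) ^ N) ^ y) ^ 2 ≤ ρ / 4 → (∀ q, (#(S q) : ℝ) ≤ s) →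
    (∀ p ∈ A, (∀ p' : E n × ℝ, ‖p'.1 - p.1‖ ≤ ρ / 4 → |p'.2 - p.2| ≤ ρ / 4 → cub ρ p' = cub ρ p) ∧
      α ≤ ‖Uu (fun η => if cell (2 ^ j) η ∈ S (cub ρ p) then G η else 0) p‖) →
    ∃ (F : Amp n (2 ^ N) K C (en G)) (nd : E n × ℝ → Nd n) (W : Finset (Nd n)),
      (∀ p, xpos (nd p) = fl p) ∧ (∀ p, (nd p).T = ⌊p.2⌋) ∧ ∀ p ∈ A, (∀ l, |(nd p).c l| ≤ 10) ∧
        α / C3 ≤ F.a 0 (nd p) ((below (2 ^ N) K (nd p).c).filter fun τ => ch (2 ^ N) K 0 (nd p) τ y ∈ W) ∧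
        (#(((below (2 ^ N) K (nd p).c).filter fun τ => ch (2 ^ N) K 0 (nd p) τ y ∈ W).image (cap (2 ^ N) K y)) : ℝ) ≤
          s * ((2 : ℝ) ^ (N * y + 1 - j)) ^ n := by
  obtain ⟨C, hC, hamp⟩ := amp_ex n
  obtain ⟨C3, hC3, hroot⟩ := root_ax n
  refine ⟨C, C3 + 1, hC, by linarith, fun N K y j ρ G A α S s hN hy hyK hj hG hρ hS hA => ?_⟩
  have hD4 : 4 ≤ 2 ^ N := le_trans (by norm_num) (Nat.pow_le_pow_right (by norm_num) hN)
  have hD : 0 < 2 ^ N := by omega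
  have eD : ((2 ^ N : ℕ) : ℝ) = (2 : ℝ) ^ N := by push_cast; rfl
  set L : ℝ := ((2 : ℝ) ^ N) ^ K with hL
  have hL0 : 0 < L := by positivity
  set T := TT n (4 * L) with hT
  set r := N * y + 1 - j with hr
  have hF : ∀ T', Fam (((2 ^ N : ℕ) : ℝ) ^ K) T' (Gc L G) := fun T' => by rw [eD]; exact fam_Gc hL0 hG T'
  obtain ⟨F, hFa⟩ := hamp (2 ^ N) K T (Gc L G) (en G) hD (hF T) (en_Gc hL0 hG).le
  set P : (Fin n → ℤ) × ℤ → Zv n → Prop := fun q τ => dv (((2 : ℕ) : ℤ) ^ r) (cap (2 ^ N) K y τ) ∈ S q with hP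
  have ht : ∀ p : E n × ℝ, |p.2 - (⌊p.2⌋ : ℤ)| ≤ 1 := by
    intro p
    have h1 := Int.floor_le p.2
    have h2 := Int.lt_floor_add_one p.2
    rw [abs_le]; constructor <;> linarith
  choose cc hcc using fun p : E n × ℝ => hroot (2 ^ N) K (T.filter (P (cub ρ p))) (Gc L G) hD4 (by omega) (hF _) p
    (fl p) ⌊p.2⌋ (fl_close' p) (ht p)
  set nd : E n × ℝ → Nd n := fun p => ⟨cc p, fun l => fl p l - ⌊p.2⌋ * cc p l, ⌊p.2⌋⟩ with hnd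
  have hx : ∀ p, xpos (nd p) = fl p := by
    intro p
    funext l
    simp only [hnd, xpos]
    ring
  set W : Finset (Nd n) := ((A.image nd).biUnion fun x => (below (2 ^ N) K x.c).image fun τ =>
    ch (2 ^ N) K 0 x τ y).filter fun S' =>
      dv (((2 : ℕ) : ℤ) ^ r) S'.c ∈ S (cub ρ (xS (2 ^ N) y S', tS (2 ^ N) y S')) with hW
  refine ⟨F, nd, W, hx, fun p => rfl, fun p hp => ?_⟩
  have hWP : ∀ τ ∈ below (2 ^ N) K (nd p).c, ch (2 ^ N) K 0 (nd p) τ y ∈ W ↔ P (cub ρ p) τ := by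
    intro τ hτ
    have a1 := cub_ch (by omega) hyK (by rw [eD]; exact hρ) (hA p hp).1 (hx p) rfl (hcc p).1 hτ
    rw [hW, Finset.mem_filter, a1, ch_c hy]
    exact ⟨fun h => h.2, fun h => ⟨Finset.mem_biUnion.mpr ⟨nd p, Finset.mem_image_of_mem _ hp,
      Finset.mem_image_of_mem _ hτ⟩, h⟩⟩
  refine ⟨(hcc p).1, ?_, ?_⟩
  · have a1 := (hA p hp).2
    rw [part_eq hL0 hG (P (cub ρ p)) _ (fun τ η hη => by rw [cell_eq hyK hj hη])] at a1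
    have a2 : mS (2 ^ N) K (T.filter (P (cub ρ p))) (Gc L G) 0 (nd p) (below (2 ^ N) K (cc p)) =
        mS (2 ^ N) K T (Gc L G) 0 (nd p)
          ((below (2 ^ N) K (nd p).c).filter fun τ => ch (2 ^ N) K 0 (nd p) τ y ∈ W) := by
      unfold mS gS
      congr 1
      funext η
      refine Finset.sum_congr ?_ fun _ _ => rfl
      ext τ
      simp only [mem_filter, mem_inter]
      constructor
      · rintro ⟨⟨⟨h1, h2⟩, h3⟩, h4⟩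
        exact ⟨⟨h1, h3, (hWP τ h3).mpr h2⟩, h4⟩
      · rintro ⟨⟨h1, h3, h2⟩, h4⟩
        exact ⟨⟨⟨h1, (hWP τ h3).mp h2⟩, h3⟩, h4⟩
    rw [hFa, ← a2, div_le_iff₀' (by linarith)]
    exact a1.trans ((hcc p).2.trans (mul_le_mul_of_nonneg_right (by linarith) (Real.sqrt_nonneg _)))
  · have hsub : (((below (2 ^ N) K (nd p).c).filter fun τ => ch (2 ^ N) K 0 (nd p) τ y ∈ W).image
        (cap (2 ^ N) K y)) ⊆ (S (cub ρ p)).biUnion fun σ => below 2 r σ := by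
      intro c hc
      obtain ⟨τ, hτ, rfl⟩ := Finset.mem_image.mp hc
      obtain ⟨h1, h2⟩ := Finset.mem_filter.mp hτ
      exact Finset.mem_biUnion.mpr ⟨_, (hWP τ h1).mp h2, (mem_below (by norm_num)).mpr rfl⟩
    have h1 := (Finset.card_le_card hsub).trans Finset.card_biUnion_le
    rw [Finset.sum_congr rfl fun σ _ => card_below2 r σ, Finset.sum_const, smul_eq_mul] at h1
    have h2 : (#(((below (2 ^ N) K (nd p).c).filter fun τ => ch (2 ^ N) K 0 (nd p) τ y ∈ W).image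
        (cap (2 ^ N) K y)) : ℝ) ≤ #(S (cub ρ p)) * ((2 : ℝ) ^ r) ^ n := by exact_mod_cast h1
    exact h2.trans (mul_le_mul_of_nonneg_right (hS _) (by positivity))

/-- **the block `t4`** -/
theorem t4 (d : ℕ) (hT : AT4 d) : T4 d := by
  classical
  intro θ b hθ hb
  have hd : (0:ℝ) ≤ d := Nat.cast_nonneg d
  obtain ⟨κ, hκ, K, hK, hK₀, hT1⟩ := hT (b / 2) (by positivity) (⌈4 / θ⌉₊ + 2 * (d + 2))
  obtain ⟨C, C3, hC, hC3, hR⟩ := roots4 d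
  obtain ⟨Ct, hCt, htr⟩ := triv4 d
  refine ⟨κ, hκ, fun B => ?_⟩
  rcases lt_or_ge B 0 with hB | hB0
  · exact ⟨0, fun ℓ ρ j G A α S _ _ _ hG => absurd (wg_nonneg hG) (not_le.2 hB)⟩
  obtain ⟨W, hW⟩ : ∃ W : ℝ, W = B * ((d : ℝ) + 1) ^ d := ⟨_, rfl⟩
  have hW0 : 0 ≤ W := by rw [hW]; positivity
  obtain ⟨C0, hC0, hs0⟩ := scale K 0 hK
  obtain ⟨N₀, hT2⟩ := hT1 C (max 1 ((⌊C0⌋₊ + 1) * W)) hC (le_max_left _ _)
  set e : ℝ := 2 * ((d : ℝ) + 1) / (d + 2) with he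
  have he0 : 0 ≤ e := by positivity
  set X1 : ℝ := 4 * (21 * d + 3) * C0 ^ θ with hX1
  obtain ⟨N₁, hN₁⟩ := pow_unbounded_of_one_lt X1 (by norm_num : (1:ℝ) < 2)
  set X : ℝ := 2 ^ d * C0 ^ (b / 2) with hX
  have hX0 : 0 < X := by positivity
  set ℓ₀ : ℝ := max (((2 : ℝ) ^ (max (max N₀ 2) N₁)) ^ K) (X ^ (2 / b)) with hℓ₀
  have hℓ₀0 : 0 ≤ ℓ₀ := le_trans (by positivity) (le_max_left _ _)
  set C1 : ℝ := Ct * W * ℓ₀ ^ (((d + 2 : ℕ) : ℝ) + κ) with hC1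
  set C2 : ℝ := C3 ^ 2 * W * C0 ^ |e - κ| with hC2
  have p1 : 0 ≤ C1 := by positivity
  have p2 : 0 ≤ C2 := by positivity
  refine ⟨C1 + C2, fun ℓ ρ j G A α S hℓ hα hG hA hj1 hj2 hρ hS hp => ?_⟩
  have hen := en_nonneg G
  have hℓ0 : 0 < ℓ := by linarith
  have hM1 : (1:ℝ) ≤ 2 ^ j := one_le_pow₀ (by norm_num)
  have hjℓ : ((2 : ℝ) ^ j) ^ (2 * (d + 2)) ≤ ℓ := by
    calc ((2 : ℝ) ^ j) ^ (2 * (d + 2)) ≤ (ℓ ^ (1 / (2 * ((d : ℝ) + 2)))) ^ (2 * (d + 2)) := by gcongr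
      _ = ℓ := by
          rw [← Real.rpow_natCast, ← Real.rpow_mul hℓ0.le]
          push_cast
          rw [one_div_mul_cancel (by positivity), Real.rpow_one]
  rcases le_or_gt ℓ ℓ₀ with hs | hl
  · have k1 := htr (ℓ ^ 2) W (2 ^ j) α G A (fun p => S (cub ρ p)) (one_le_pow₀ hℓ) hW0 hM1 hα hG
      (fun p h => ⟨(hp p h).1, (hp p h).2.1⟩) (fun y s => by rw [hW]; convert wg_unit hℓ hA y s)
      (fun p h => by convert (hp p h).2.2.2)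
    have k2 : (2 : ℝ) ^ j ≤ ℓ := (le_self_pow₀ hM1 (by omega)).trans hjℓ
    calc α ^ 2 * #A ≤ Ct * W * ((2 : ℝ) ^ j) ^ d * ℓ ^ 2 * en G := k1
      _ ≤ Ct * W * ℓ ^ d * ℓ ^ 2 * en G := by gcongr
      _ = Ct * W * ℓ ^ (d + 2) * en G := by ring
      _ ≤ Ct * W * (ℓ₀ ^ (((d + 2 : ℕ) : ℝ) + κ) * ℓ ^ (e - κ)) * en G := by
          gcongr
          exact small_pow hℓ hs hκ.le (by linarith) (d + 2)
      _ = C1 * ℓ ^ (e - κ) * en G := by rw [hC1]; ring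
      _ ≤ _ := by gcongr; linarith
  obtain ⟨N, -, h1, h2⟩ := hs0 ℓ hℓ
  have hN : max (max N₀ 2) N₁ ≤ N := le_of_pow_le hK (((le_max_left _ _).trans hl.le).trans h1.le)
  have hN0 : N₀ ≤ N := (le_max_left _ _).trans ((le_max_left _ _).trans hN)
  have hN2 : 2 ≤ N := (le_max_right _ _).trans ((le_max_left _ _).trans hN)
  have hN1 : N₁ ≤ N := (le_max_right _ _).trans hN
  set L : ℝ := ((2 : ℝ) ^ N) ^ K with hL
  have hL0 : 0 < L := by positivity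
  have hD1 : (1:ℝ) ≤ 2 ^ N := one_le_pow₀ (by norm_num)
  set y := j / N + 1 with hy
  have y0 : 1 ≤ y := Nat.le_add_left 1 _
  have y1 : N * (j / N) ≤ j := Nat.mul_div_le j N
  have y2 : j < N * y := Nat.lt_mul_div_succ j (by omega)
  have y3 : j * (2 * (d + 2)) ≤ N * K := by
    have := hjℓ.trans h1.le
    rw [hL, ← pow_mul, ← pow_mul] at this
    exact (pow_le_pow_iff_right₀ (by norm_num : (1:ℝ) < 2)).mp this
  have y4 : j / N * (2 * (d + 2)) ≤ K := by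
    have : N * (j / N * (2 * (d + 2))) ≤ N * K := by
      rw [← mul_assoc]
      exact (Nat.mul_le_mul_right _ y1).trans y3
    exact Nat.le_of_mul_le_mul_left this (by omega)
  have y5 : (d + 2) * y ≤ K := by
    rw [hy]
    nlinarith
  have y6 : y ≤ K := le_trans (Nat.le_mul_of_pos_left y (by omega)) y5
  have hρ' : (21 * d + 3) * (((2 : ℝ) ^ N) ^ y) ^ 2 ≤ ρ / 4 := by
    have a1 : ((2 : ℝ) ^ N) ^ y ≤ 2 ^ N * 2 ^ j := by
      rw [← pow_mul, ← pow_add]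
      refine pow_le_pow_right₀ (by norm_num) ?_
      rw [hy, Nat.mul_add]
      omega
    have a2 : ((2 : ℝ) ^ N) ^ 4 ≤ C0 ^ θ * 2 ^ j := by
      have b1 : (4:ℝ) ≤ K * θ := by
        have b2 : 4 / θ ≤ K := (Nat.le_ceil _).trans (by exact_mod_cast (by omega : ⌈4 / θ⌉₊ ≤ K))
        rwa [div_le_iff₀ hθ] at b2
      have b3 := rpow_scale hℓ h1.le h2 hC0 θ
      rw [abs_of_pos hθ] at b3
      calc ((2 : ℝ) ^ N) ^ 4 = ((2 : ℝ) ^ N) ^ (4:ℝ) := by norm_cast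
        _ ≤ ((2 : ℝ) ^ N) ^ (K * θ : ℝ) := Real.rpow_le_rpow_of_exponent_le hD1 b1
        _ = L ^ θ := pw_eq N K θ
        _ ≤ C0 ^ θ * ℓ ^ θ := b3
        _ ≤ _ := by gcongr
    have a3 : X1 ≤ ((2 : ℝ) ^ N) ^ 2 :=
      hN₁.le.trans ((pow_le_pow_right₀ (by norm_num) hN1).trans (le_self_pow₀ hD1 (by norm_num)))
    have a4 : 4 * (21 * d + 3) * ((2 : ℝ) ^ N) ^ 2 ≤ 2 ^ j := by
      have b1 : 0 < C0 ^ θ := by positivity
      refine le_of_mul_le_mul_left ?_ b1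
      calc C0 ^ θ * (4 * (21 * d + 3) * ((2 : ℝ) ^ N) ^ 2) = X1 * ((2 : ℝ) ^ N) ^ 2 := by rw [hX1]; ring
        _ ≤ ((2 : ℝ) ^ N) ^ 2 * ((2 : ℝ) ^ N) ^ 2 := by gcongr
        _ = ((2 : ℝ) ^ N) ^ 4 := by ring
        _ ≤ _ := a2
    rw [le_div_iff₀ (by norm_num)]
    calc (21 * d + 3) * (((2 : ℝ) ^ N) ^ y) ^ 2 * 4 ≤ (21 * d + 3) * ((2 : ℝ) ^ N * 2 ^ j) ^ 2 * 4 := by gcongr
      _ = (4 * (21 * d + 3) * ((2 : ℝ) ^ N) ^ 2) * ((2 : ℝ) ^ j) ^ 2 := by ring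
      _ ≤ 2 ^ j * ((2 : ℝ) ^ j) ^ 2 := by gcongr
      _ = ((2 : ℝ) ^ j) ^ 3 := by ring
      _ ≤ ρ := hρ
  obtain ⟨F, nd, Wn, hx, ht, hnd⟩ := hR N K y j ρ G A α S _ hN2 y0 y6 (by omega) hG hρ' hS
    (fun p h => ⟨(hp p h).2.2.1, by convert (hp p h).2.2.2⟩)
  have hRL : ℓ ^ 2 < L ^ 2 := pow_lt_pow_left₀ h1 hℓ0.le (by norm_num)
  have hwga := wga_img hℓ hA (q := ((2 : ℤ) ^ N) ^ K) (C' := C0) (by positivity) (by push_cast; exact h2) hx ht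
  rw [← hW] at hwga
  have hcnt : ℓ ^ (-b) * ((2 : ℝ) ^ j) ^ d * ((2 : ℝ) ^ (N * y + 1 - j)) ^ d ≤
      ((2 : ℝ) ^ N) ^ ((d : ℝ) * y - b / 2 * K) := by
    have a1 : ((2 : ℝ) ^ j) ^ d * ((2 : ℝ) ^ (N * y + 1 - j)) ^ d = 2 ^ d * ((2 : ℝ) ^ N) ^ (d * y) := by
      rw [← mul_pow, ← pow_add, show j + (N * y + 1 - j) = N * y + 1 by omega, pow_succ, mul_pow, mul_comm,
        ← pow_mul, ← pow_mul]
      congr 2
      ring
    have a2 : ((2 : ℝ) ^ N) ^ ((d : ℝ) * y - b / 2 * K) = ((2 : ℝ) ^ N) ^ (d * y) * (L ^ (b / 2))⁻¹ := by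
      rw [Real.rpow_sub (by positivity), mul_comm (b / 2), pw_eq N K, ← Nat.cast_mul, Real.rpow_natCast, ← hL,
        ← div_eq_mul_inv]
    have a3 : 2 ^ d * L ^ (b / 2) ≤ ℓ ^ b := by
      have b1 := rpow_scale hℓ h1.le h2 hC0 (b / 2)
      rw [abs_of_pos (by positivity : 0 < b / 2)] at b1
      have b2 : X ≤ ℓ ^ (b / 2) := by
        calc X = (X ^ (2 / b)) ^ (b / 2) := by
              rw [← Real.rpow_mul hX0.le, show 2 / b * (b / 2) = 1 by field_simp, Real.rpow_one]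
          _ ≤ _ := Real.rpow_le_rpow (by positivity) ((le_max_right _ _).trans hl.le) (by positivity)
      calc 2 ^ d * L ^ (b / 2) ≤ 2 ^ d * (C0 ^ (b / 2) * ℓ ^ (b / 2)) := by gcongr
        _ = X * ℓ ^ (b / 2) := by rw [hX]; ring
        _ ≤ ℓ ^ (b / 2) * ℓ ^ (b / 2) := by gcongr
        _ = _ := by rw [← Real.rpow_add hℓ0]; congr 1; ring
    have a4 : ℓ ^ (-b) * 2 ^ d ≤ (L ^ (b / 2))⁻¹ := by
      rw [Real.rpow_neg hℓ0.le, inv_mul_le_iff₀ (by positivity), ← div_eq_mul_inv, le_div_iff₀ (by positivity)]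
      exact a3
    rw [mul_assoc, a1, a2, ← mul_assoc, mul_comm (((2 : ℝ) ^ N) ^ (d * y))]
    gcongr
  have k1 := hT2 N hN0 (en G) F (A.image nd) (α / C3) y Wn (by positivity) y0 y5 hwga (by
    intro x hxX
    obtain ⟨p, hpA, rfl⟩ := Finset.mem_image.mp hxX
    obtain ⟨t0, t1, -⟩ := hp p hpA
    obtain ⟨c1, c2, c3⟩ := hnd p hpA
    refine ⟨c1, by rw [ht]; exact Int.floor_nonneg.2 t0, ?_, c2, c3.trans hcnt⟩
    rw [ht, Int.floor_lt]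
    push_cast
    rw [mul_comm 2 K, pow_mul]
    linarith)
  have hcard := card_nd hℓ hA hx ht
  rw [← hW] at hcard
  rw [pw_eq] at k1
  have k3 := rpow_scale hℓ h1.le h2 hC0 (e - κ)
  calc α ^ 2 * (#A : ℝ) ≤ α ^ 2 * (W * #(A.image nd)) := mul_le_mul_of_nonneg_left hcard (by positivity)
    _ = C3 ^ 2 * W * ((α / C3) ^ 2 * #(A.image nd)) := by field_simp
    _ ≤ C3 ^ 2 * W * ((C0 ^ |e - κ| * ℓ ^ (e - κ)) * en G) := by
        refine mul_le_mul_of_nonneg_left (k1.trans ?_) (by positivity)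
        gcongr
    _ = C2 * ℓ ^ (e - κ) * en G := by rw [hC2]; ring
    _ ≤ _ := by gcongr; linarith

end Vale.Agent.P076N.BR
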