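import Vale.Agent.P076N.BR.T3

/-! # P076N / BR : tools for the block `t4` -/

set_option linter.all false

open MeasureTheory Finset

namespace Vale.Agent.P076N.BR

open Vale.Agent.P076 Vale.Agent.P076N.A Vale.Agent.P076T

variable {n : ℕ}

/-- the explicit amplitudes -/
theorem amp_ex (n : ℕ) : ∃ C : ℝ, 1 ≤ C ∧ ∀ (D K : ℕ) (T : Finset (Zv n)) (H : Zv n → E n → ℂ) (Q : ℝ), 0 < D →
    Fam ((D : ℝ) ^ K) T H → ∑ τ ∈ T, en (H τ) ≤ Q →
      ∃ F : Amp n D K C Q, ∀ i S U, F.a i S U = Real.sqrt (mS D K T H i S U) := by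
  obtain ⟨C1, hC1, h1⟩ := l1_ax n
  obtain ⟨C2, hC2, h2⟩ := bk_ax n
  have hcW := cW_nonneg n
  refine ⟨1 + C1 + C2 + cW n, by linarith, fun D K T H Q hD hF hQ => ?_⟩
  have hQ0 : 0 ≤ Q := le_trans (Finset.sum_nonneg fun τ _ => en_nonneg _) hQ
  have hsq : ∀ i S U, Real.sqrt (mS D K T H i S U) ^ 2 = mS D K T H i S U :=
    fun i S U => Real.sq_sqrt (mS_nonneg hD i S U)
  refine ⟨⟨fun i S U => Real.sqrt (mS D K T H i S U), fun i S U => Real.sqrt_nonneg _, ?_, ?_, ?_, ?_, ?_, ?_⟩,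
    fun _ _ _ => rfl⟩
  · intro i S U
    unfold mS gS
    congr 3
    funext η
    refine Finset.sum_congr ?_ fun _ _ => rfl
    ext τ
    simp only [mem_filter, mem_inter]
    tauto
  · intro i S
    unfold mS gS
    simp [mean_zero]
  · intro i S U U' hU
    unfold mS
    rw [gS_union i S.c hU]
    exact sqrt_mean_add (MM_n n) (by positivity) _ _ (gS_int hF _ _ _) (gS_int hF _ _ _)
  · intro i hi S U
    refine (h1 _ K T H hD hF i hi S U).trans (mul_le_mul_of_nonneg_right (by linarith) ?_)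
    exact Finset.sum_nonneg fun _ _ => Real.sqrt_nonneg _
  · intro i hi k hk p w b U Z hU hZ
    simp_rw [hsq]
    refine (h2 _ K T H hD hF i hi k hk p w b U Z hU hZ).trans (mul_le_mul_of_nonneg_right ?_ ?_)
    · exact mul_le_mul_of_nonneg_right (by linarith) (by positivity)
    · exact Finset.sum_nonneg fun _ _ => mS_nonneg hD _ _ _
  · intro Z hZ
    simp_rw [hsq]
    exact (top_ax hD hF hQ Z hZ).trans (mul_le_mul_of_nonneg_right (by linarith) hQ0)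

theorem ch_c {D K y : ℕ} (hy : 1 ≤ y) (x : Nd n) (τ : Zv n) : (ch D K 0 x τ y).c = cap D K y τ := by
  obtain ⟨i, rfl⟩ : ∃ i, y = i + 1 := ⟨y - 1, by omega⟩
  show cap D K (0 + i + 1) τ = _
  rw [Nat.zero_add]

/-- the chain from a root stays near the root -/
theorem ch_near {D K : ℕ} (hD : 2 ≤ D) {x : Nd n} (hx : ∀ l, |x.c l| ≤ 10) {τ : Zv n} (hτ : τ ∈ below D K x.c) :
    ∀ i ≤ K, |tS D 0 x - tS D i (ch D K 0 x τ i)| ≤ 2 * ((D : ℝ) ^ i) ^ 2 ∧
      ∀ l, |(xS D 0 x - xS D i (ch D K 0 x τ i)) l| ≤ 20 * ((D : ℝ) ^ i) ^ 2 := by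
  have hD0 : 0 < D := by omega
  have hD2 : (2:ℝ) ≤ D := by exact_mod_cast hD
  intro i
  induction i with
  | zero =>
    intro _
    simp [ch]
  | succ i ih =>
    intro hi
    obtain ⟨h1, h2⟩ := ih (by omega)
    set S := ch D K 0 x τ i with hS
    set c' := cap D K (i + 1) τ with hc'
    have e : ch D K 0 x τ (i + 1) = parB D (ball D S) c' := by
      show par D S (cap D K (0 + i + 1) τ) = _
      rw [Nat.zero_add]
      rfl
    rw [e]
    have a1 := time_par hD0 i (ball D S) c'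
    have e1 : tS D i (ball D S) = tS D i S := rfl
    rw [e1] at a1
    have hr : (1:ℝ) ≤ (D : ℝ) ^ (i + 1) := one_le_pow₀ (by linarith)
    have a2 : 4 * ((D : ℝ) ^ i) ^ 2 ≤ ((D : ℝ) ^ (i + 1)) ^ 2 := by
      rw [pow_succ (D : ℝ) i, mul_pow, mul_comm]
      gcongr
      nlinarith
    constructor
    · rw [abs_le] at h1 a1 ⊢
      constructor <;> nlinarith [h1.1, h1.2, a1.1, a1.2]
    · intro l
      obtain ⟨b1, b2⟩ := pos_ball hD0 i S l
      obtain ⟨b3, b4⟩ := pos_par hD0 i (ball D S) c' l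
      rw [e1] at b3 b4
      have b5 : |(c' l : ℝ) / (D : ℝ) ^ (i + 1)| ≤ 12 := by
        have c1 := abs_le.mp (cap_near hD0 hi τ l)
        have c2 := abs_le.mp (cap_near hD0 (Nat.zero_le K) τ l)
        have c3 : cap D K 0 τ = x.c := (mem_below hD0).mp hτ
        rw [c3] at c2
        simp only [pow_zero, div_one] at c2
        have c4 : ((|x.c l| : ℤ) : ℝ) ≤ ((10 : ℤ) : ℝ) := by exact_mod_cast hx l
        push_cast at c4
        have c5 := abs_le.mp c4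
        have c6 : 1 / (D : ℝ) ^ (i + 1) ≤ 1 := by rw [div_le_one (by linarith)]; exact hr
        rw [abs_le]
        constructor <;> linarith [c1.1, c1.2, c2.1, c2.2, c5.1, c5.2]
      have b6 : |(tS D i S - tS D (i + 1) (parB D (ball D S) c')) * ((c' l : ℝ) / (D : ℝ) ^ (i + 1))| ≤
          ((D : ℝ) ^ (i + 1)) ^ 2 * 12 := by
        rw [abs_mul]
        exact mul_le_mul a1 b5 (abs_nonneg _) (by positivity)
      have b7 := abs_le.mp b6
      have b8 := abs_le.mp (h2 l)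
      have b9 : (D : ℝ) ^ (i + 1) ≤ ((D : ℝ) ^ (i + 1)) ^ 2 := by nlinarith
      simp only [PiLp.sub_apply, PiLp.smul_apply, smul_eq_mul] at b1 b2 b3 b4 b8 ⊢
      rw [abs_le]
      constructor <;> nlinarith [b7.1, b7.2, b8.1, b8.2]

theorem cell_eq {N K y j : ℕ} (hy : y ≤ K) (hj : j ≤ N * y + 1) {τ : Zv n} {η : E n}
    (h : η ∈ cel (((2 : ℝ) ^ N) ^ K) τ) :
    cell ((2 : ℝ) ^ j) η = dv (((2 : ℕ) : ℤ) ^ (N * y + 1 - j)) (cap (2 ^ N) K y τ) := by
  funext l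
  unfold cell cap dv
  rw [Int.ediv_ediv_of_nonneg (by positivity), ← h l]
  have e1 : (((2 ^ N : ℕ) : ℤ) ^ (K - y) * ((2 : ℕ) : ℤ) ^ (N * y + 1 - j)) =
      ((2 ^ (N * (K - y) + (N * y + 1 - j)) : ℕ) : ℤ) := by
    push_cast
    rw [pow_add, pow_mul]
  rw [e1, ← Int.floor_div_natCast]
  congr 1
  have e2 : 2 * ((2 : ℝ) ^ N) ^ K = 2 ^ j * 2 ^ (N * (K - y) + (N * y + 1 - j)) := by
    rw [← pow_mul, ← pow_succ', ← pow_add]
    congr 1
    obtain ⟨k, rfl⟩ := Nat.exists_eq_add_of_le hy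
    rw [Nat.add_sub_cancel_left, Nat.mul_add]
    omega
  rw [e2]
  push_cast
  field_simp

theorem card_below2 (r : ℕ) (σ : Zv n) : #(below 2 r σ) = (2 ^ r) ^ n := by
  unfold below
  rw [Fintype.card_piFinset]
  have e : ∀ l : Fin n, #(Finset.Ico (((2 : ℕ) : ℤ) ^ r * σ l) (((2 : ℕ) : ℤ) ^ r * (σ l + 1))) = 2 ^ r := by
    intro l
    rw [Int.card_Ico, show ((2 : ℕ) : ℤ) ^ r * (σ l + 1) - ((2 : ℕ) : ℤ) ^ r * σ l = ((2 ^ r : ℕ) : ℤ) by
      push_cast; ring, Int.toNat_natCast]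
  simp only [e, Finset.prod_const, Finset.card_univ, Fintype.card_fin]

open Classical in
/-- the part of `G` in a set of cells -/
theorem part_eq {L : ℝ} (hL : 0 < L) {G : E n → ℂ} (hG : Bd 4 G) (P : Zv n → Prop) [DecidablePred P] (P' : E n → Prop)
    [DecidablePred P'] (h : ∀ τ η, η ∈ cel L τ → (P τ ↔ P' η)) :
    (fun η => if P' η then G η else 0) = fun η => ∑ τ ∈ (TT n (4 * L)).filter P, Gc L G τ η := by
  funext η
  rw [← sum_cel (fun z => if P' η then z else 0) (by simp) hL hG η, Finset.sum_filter]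
  refine Finset.sum_congr rfl fun τ _ => ?_
  by_cases hη : η ∈ cel L τ
  · simp only [h τ η hη]
  · unfold Gc
    rw [Set.indicator_of_notMem hη]
    simp

theorem card_TT {L : ℝ} (hL : 0 ≤ L) : (#(TT n L) : ℝ) ≤ (4 * L + 5) ^ n := by
  unfold TT
  rw [Fintype.card_piFinset]
  simp only [Finset.prod_const, Finset.card_univ, Fintype.card_fin, Int.card_Icc]
  push_cast
  gcongr
  have h1 := Int.ceil_lt_add_one (2 * L)
  have h2 : 0 ≤ ⌈2 * L⌉ := Int.ceil_nonneg (by positivity)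
  have h3 : (((⌈2 * L⌉ + 1 + 1 - -(⌈2 * L⌉ + 1)).toNat : ℤ) : ℝ) = ((⌈2 * L⌉ + 1 + 1 - -(⌈2 * L⌉ + 1) : ℤ) : ℝ) := by
    rw [Int.toNat_of_nonneg (by omega)]
  rw [Int.cast_natCast] at h3
  rw [h3]
  push_cast
  linarith

open Classical in
/-- the trivial bound for `T4` -/
theorem triv4 (n : ℕ) : ∃ C : ℝ, 0 ≤ C ∧ ∀ (R W M α : ℝ) (G : E n → ℂ) (A : Finset (E n × ℝ))
    (S : E n × ℝ → Finset (Zv n)), 1 ≤ R → 0 ≤ W → 1 ≤ M → 0 ≤ α → Bd 4 G → (∀ p ∈ A, 0 ≤ p.2 ∧ p.2 ≤ R) →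
    (∀ (y : Zv n) (s : ℤ), (#(A.filter fun p => fl p = y ∧ ⌊p.2⌋ = s) : ℝ) ≤ W) →
    (∀ p ∈ A, α ≤ ‖Uu (fun η => if cell M η ∈ S p then G η else 0) p‖) →
    α ^ 2 * #A ≤ C * W * M ^ n * R * en G := by
  obtain ⟨C, hC, h⟩ := trivW n
  refine ⟨C * 13 ^ n, by positivity, fun R W M α G A S hR hW hM hα hG ht hA hb => ?_⟩
  have hL : 0 < M / 2 := by linarith
  set T := TT n (4 * (M / 2)) with hT
  have hc : (#T : ℝ) ≤ (13 * M) ^ n := (card_TT (by positivity)).trans (by gcongr; linarith)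
  have k1 : ∀ p ∈ A, α ^ 2 ≤ #T * ∑ σ ∈ T, ‖Uu (Gc (M / 2) G σ) p‖ ^ 2 := by
    intro p hp
    have a1 := hb p hp
    rw [part_eq hL hG (fun σ => σ ∈ S p) _ (fun τ η hη => by
      have : cell M η = τ := funext fun l => by
        rw [← hη l]
        unfold cell
        congr 2
        ring
      rw [this])] at a1
    unfold Uu at a1 ⊢
    rw [P076T.evo_sum _ fun σ _ => (Gc_bd hG σ).integrable] at a1
    have a2 : α ≤ ∑ σ ∈ T, ‖evo (Gc (M / 2) G σ) p.1 p.2 0‖ :=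
      a1.trans ((norm_sum_le _ _).trans
        (Finset.sum_le_sum_of_subset_of_nonneg (Finset.filter_subset _ _) fun _ _ _ => norm_nonneg _))
    exact (pow_le_pow_left₀ hα a2 2).trans sq_sum_le_card_mul_sum_sq
  have hen := en_nonneg G
  calc α ^ 2 * #A ≤ ∑ p ∈ A, #T * ∑ σ ∈ T, ‖Uu (Gc (M / 2) G σ) p‖ ^ 2 := by
        rw [mul_comm, ← nsmul_eq_mul]
        exact Finset.card_nsmul_le_sum _ _ _ k1
    _ = #T * ∑ σ ∈ T, ∑ p ∈ A, ‖Uu (Gc (M / 2) G σ) p‖ ^ 2 := by rw [← Finset.mul_sum, Finset.sum_comm]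
    _ ≤ #T * ∑ σ ∈ T, C * W * R * en (Gc (M / 2) G σ) := by
        gcongr with σ _
        exact h R W _ A hR hW (Gc_bd hG σ) ht hA
    _ = #T * (C * W * R * en G) := by rw [← Finset.mul_sum, hT, en_Gc hL hG]
    _ ≤ (13 * M) ^ n * (C * W * R * en G) := by gcongr
    _ = _ := by rw [mul_pow]; ring

end Vale.Agent.P076N.BR
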